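import Vale.Agent.P167.H45.Small1

/-!
# P167, block E2: small loops: decomposition over scales and boxes
-/

namespace Vale.Agent.P167.H45

open Finset Filter Topology MeasureTheory ProbabilityTheory
open Vale.Agent.P167.H562

theorem Small.mono {d d' : ℝ} (h : d ≤ d') {ℓ : Finset Ed} (hs : Small d ℓ) : Small d' ℓ :=
  fun u hu v hv => (hs u hu v hv).trans_le h

/-- The small loops near the annulus. -/
def SLo (ρ d : ℝ) (ω : Cfg) : Set (Finset Ed) :=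
  {ℓ | IsLoop ω ℓ ∧ Vis (ρ - 2) (2 * ρ + 2) ℓ ∧ Small d ℓ}

theorem SLo_fin (ρ d : ℝ) (ω : Cfg) : (SLo ρ d ω).Finite := by
  obtain ⟨B, hB⟩ := box_fin 0 ⌊2 * ρ + 2⌋
  refine (LV_fin s_two B ω).subset ?_
  rintro ℓ ⟨h1, ⟨v, hv, -, h3⟩, -⟩
  exact ⟨h1, v, hv, (hB _).2 (by rw [Int.le_floor]; simpa using h3)⟩

/-- The small loops near the annulus. -/
noncomputable def sf (ρ d : ℝ) (ω : Cfg) : Finset (Finset Ed) := (SLo_fin ρ d ω).toFinset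

theorem mem_sf {ρ d : ℝ} {ω : Cfg} {ℓ : Finset Ed} :
    ℓ ∈ sf ρ d ω ↔ IsLoop ω ℓ ∧ Vis (ρ - 2) (2 * ρ + 2) ℓ ∧ Small d ℓ := by
  rw [sf, Set.Finite.mem_toFinset]; rfl

/-- Functions of the set of the small loops near the annulus are local. -/
theorem sf_loc {ρ d : ℝ} : ∃ F : Finset (ℤ × ℤ), ∀ ω ω' : Cfg, (∀ v ∈ F, ω v = ω' v) →
    sf ρ d ω = sf ρ d ω' := by
  classical
  obtain ⟨F, hF⟩ := box_fin 0 ⌊2 * ρ + 2 + d⌋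
  refine ⟨F, ?_⟩
  have key : ∀ ω ω' : Cfg, (∀ v ∈ F, ω v = ω' v) → sf ρ d ω ⊆ sf ρ d ω' := by
    intro ω ω' hw ℓ hℓ
    rw [mem_sf] at hℓ ⊢
    obtain ⟨h1, ⟨u, hu, h2, h3⟩, h4⟩ := hℓ
    refine ⟨s_loc ω ω' ℓ h1 (fun v hv => hw v ((hF v).2 ?_)), ⟨u, hu, h2, h3⟩, h4⟩
    rw [Int.le_floor, sub_zero]
    have h5 : nm v ≤ nm (v - u) + nm u := by simpa using nm_add_le (v - u) u
    have h6 : (nm v : ℝ) ≤ nm (v - u) + nm u := by exact_mod_cast h5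
    have h7 := h4 v hv u hu
    linarith
  intro ω ω' hw
  exact Finset.Subset.antisymm (key ω ω' hw) (key ω' ω fun v hv => (hw v hv).symm)

/-- Local functions are integrable. -/
theorem loc_int {X : Cfg → ℝ} (F : Finset (ℤ × ℤ))
    (h : ∀ ω ω' : Cfg, (∀ v ∈ F, ω v = ω' v) → X ω = X ω') : Integrable X μ := by
  classical
  have hm : Measurable X := meas_locfun F h
  let e : (F → Bool) → Cfg := fun η v => if hv : v ∈ F then η ⟨v, hv⟩ else false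
  have he : ∀ ω, X ω = X (e fun v => ω v) := by
    intro ω
    refine h _ _ fun v hv => ?_
    simp [e, hv]
  obtain ⟨C, hC⟩ : ∃ C : ℝ, ∀ η : F → Bool, |X (e η)| ≤ C := by
    obtain ⟨C, hC⟩ := (Set.finite_range (fun η : F → Bool => |X (e η)|)).bddAbove
    exact ⟨C, fun η => hC ⟨η, rfl⟩⟩
  refine Integrable.of_bound hm.aestronglyMeasurable C (Filter.Eventually.of_forall fun ω => ?_)
  rw [Real.norm_eq_abs, he]
  exact hC (fun v : F => ω v)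

/-- The scale of a loop. -/
noncomputable def cl (x : ℝ) (ℓ : Finset Ed) : ℕ := sInf {j | ¬ Small (x / 2 ^ (j + 1)) ℓ}

theorem cl_spec {x : ℝ} {J : ℕ} {ℓ : Finset Ed} (h1 : Small x ℓ) (h2 : ¬ Small (x / 2 ^ J) ℓ) :
    cl x ℓ < J ∧ Small (x / 2 ^ (cl x ℓ)) ℓ ∧ ¬ Small (x / 2 ^ (cl x ℓ + 1)) ℓ := by
  have hJ : J ≠ 0 := by
    rintro rfl
    rw [pow_zero, div_one] at h2
    exact h2 h1
  have hmem : J - 1 ∈ {j | ¬ Small (x / 2 ^ (j + 1)) ℓ} := by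
    show ¬ Small (x / 2 ^ (J - 1 + 1)) ℓ
    rwa [Nat.sub_add_cancel (by omega)]
  have h3 : cl x ℓ ≤ J - 1 := Nat.sInf_le hmem
  have h4 : ¬ Small (x / 2 ^ (cl x ℓ + 1)) ℓ := Nat.sInf_mem ⟨_, hmem⟩
  refine ⟨by omega, ?_, h4⟩
  rcases Nat.eq_zero_or_pos (cl x ℓ) with h5 | h5
  · rw [h5, pow_zero, div_one]; exact h1
  · have h6 : cl x ℓ - 1 ∉ {j | ¬ Small (x / 2 ^ (j + 1)) ℓ} :=
      Nat.notMem_of_lt_sInf (show cl x ℓ - 1 < cl x ℓ by omega)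
    rw [Set.mem_ofPred_eq, not_not, Nat.sub_add_cancel (by omega)] at h6
    exact h6

/-- Index of the box which contains the corner. -/
noncomputable def zz (L : ℤ) (ℓ : Finset Ed) : ℤ × ℤ := ((bs ℓ).1 / L, (bs ℓ).2 / L)

/-- The boxes of the coordinates which matter. -/
def Bq (L : ℤ) (z : ℤ × ℤ) : Set (ℤ × ℤ) :=
  {v | L * z.1 ≤ v.1 ∧ v.1 < L * z.1 + 2 * L ∧ L * z.2 ≤ v.2 ∧ v.2 < L * z.2 + 2 * L}

theorem Bq_fin (L : ℤ) (z : ℤ × ℤ) : ∃ F : Finset (ℤ × ℤ), ∀ v, v ∈ Bq L z → v ∈ F := by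
  refine ⟨(Finset.Ico (L * z.1) (L * z.1 + 2 * L)) ×ˢ (Finset.Ico (L * z.2) (L * z.2 + 2 * L)),
    fun v hv => ?_⟩
  rw [Finset.mem_product, Finset.mem_Ico, Finset.mem_Ico]
  exact ⟨⟨hv.1, hv.2.1⟩, hv.2.2.1, hv.2.2.2⟩

theorem Bq_disj {L : ℤ} {z z' : ℤ × ℤ} (hz : z ≠ z') (h1 : z.1 % 2 = z'.1 % 2)
    (h2 : z.2 % 2 = z'.2 % 2) : Disjoint (Bq L z) (Bq L z') := by
  rw [Set.disjoint_left]
  rintro v ⟨a1, a2, a3, a4⟩ ⟨b1, b2, b3, b4⟩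
  have aux : ∀ p q w : ℤ, L * p ≤ w → w < L * p + 2 * L → L * q ≤ w → w < L * q + 2 * L →
      p % 2 = q % 2 → p = q := by
    intro p q w c1 c2 c3 c4 c5
    have hL : 0 < L := by linarith
    have h3 : L * q < L * (p + 2) := by linarith
    have h4 : L * p < L * (q + 2) := by linarith
    have h5 := lt_of_mul_lt_mul_left h3 hL.le
    have h6 := lt_of_mul_lt_mul_left h4 hL.le
    omega
  exact hz (Prod.ext (aux _ _ _ a1 a2 b1 b2 h1) (aux _ _ _ a3 a4 b3 b4 h2))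

theorem zz_box {L : ℤ} (hL : 0 < L) (ℓ : Finset Ed) : L * (zz L ℓ).1 ≤ (bs ℓ).1 ∧
    (bs ℓ).1 < L * (zz L ℓ).1 + L ∧ L * (zz L ℓ).2 ≤ (bs ℓ).2 ∧
    (bs ℓ).2 < L * (zz L ℓ).2 + L := by
  have h1 := Int.emod_add_mul_ediv (bs ℓ).1 L
  have h2 := Int.emod_add_mul_ediv (bs ℓ).2 L
  have h3 := Int.emod_nonneg (bs ℓ).1 hL.ne'
  have h4 := Int.emod_nonneg (bs ℓ).2 hL.ne'
  have h5 := Int.emod_lt_of_pos (bs ℓ).1 hL
  have h6 := Int.emod_lt_of_pos (bs ℓ).2 hL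
  simp only [zz]
  refine ⟨?_, ?_, ?_, ?_⟩ <;> linarith

theorem box_of_small {d : ℝ} {ℓ : Finset Ed} (hs : Small d ℓ) {v : ℤ × ℤ}
    (hv : v ∈ vs ℓ) : v ∈ Bq ⌈d⌉ (zz ⌈d⌉ ℓ) := by
  obtain ⟨h1, h2⟩ := small_box hs hv
  obtain ⟨h3, h4⟩ := bs_le hv
  have hd0 : 0 < d := by
    have := hs v hv v hv
    simpa [nm] using this
  have hL : 0 < ⌈d⌉ := Int.ceil_pos.2 hd0
  obtain ⟨b1, b2, b3, b4⟩ := zz_box hL ℓ
  have h5 : v.1 - (bs ℓ).1 < ⌈d⌉ := Int.lt_ceil.2 h1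
  have h6 : v.2 - (bs ℓ).2 < ⌈d⌉ := Int.lt_ceil.2 h2
  refine ⟨?_, ?_, ?_, ?_⟩ <;> linarith

open Classical in
/-- The part of the sum of `φ` over the small loops, for one scale and one box. -/
noncomputable def XX (ρ x : ℝ) (φ : Finset Ed → ℝ) (j : ℕ) (z : ℤ × ℤ) (ω : Cfg) : ℝ :=
  ∑ ℓ ∈ (sf ρ x ω).filter (fun ℓ => cl x ℓ = j ∧ zz ⌈x / 2 ^ j⌉ ℓ = z), φ ℓ

/-- A small loop and its scale. -/
theorem scale_of {ρ x : ℝ} {J : ℕ} (hJ : x / 2 ^ J ≤ 1) {ω : Cfg} {ℓ : Finset Ed}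
    (hℓ : ℓ ∈ sf ρ x ω) : cl x ℓ < J ∧ Small (x / 2 ^ (cl x ℓ)) ℓ ∧
      ¬ Small (x / 2 ^ (cl x ℓ + 1)) ℓ := by
  rw [mem_sf] at hℓ
  exact cl_spec hℓ.2.2 (not_small_one s_con hℓ.1 hJ (two_squares hℓ.1))

theorem XX_loc {ρ x : ℝ} {J : ℕ} (hJ : x / 2 ^ J ≤ 1) (φ : Finset Ed → ℝ) (j : ℕ) (z : ℤ × ℤ) :
    LocFun (Bq ⌈x / 2 ^ j⌉ z) (XX ρ x φ j z) := by
  classical
  intro ω ω' hw
  have key : ∀ ω ω' : Cfg, (∀ v ∈ Bq ⌈x / 2 ^ j⌉ z, ω v = ω' v) →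
      (sf ρ x ω).filter (fun ℓ => cl x ℓ = j ∧ zz ⌈x / 2 ^ j⌉ ℓ = z) ⊆
      (sf ρ x ω').filter (fun ℓ => cl x ℓ = j ∧ zz ⌈x / 2 ^ j⌉ ℓ = z) := by
    intro ω ω' hw ℓ hℓ
    rw [Finset.mem_filter] at hℓ ⊢
    obtain ⟨h1, h2, h3⟩ := hℓ
    refine ⟨?_, h2, h3⟩
    have h4 := (scale_of hJ h1).2.1
    rw [mem_sf] at h1 ⊢
    rw [h2] at h4
    refine ⟨s_loc ω ω' ℓ h1.1 (fun v hv => hw v ?_), h1.2⟩
    rw [← h3]
    exact box_of_small h4 hv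
  unfold XX
  rw [Finset.Subset.antisymm (key ω ω' hw) (key ω' ω fun v hv => (hw v hv).symm)]

/-- Bound of one term by the number of loops of the scale. -/
theorem XX_le {ρ x : ℝ} {J : ℕ} (hJ : x / 2 ^ J ≤ 1) {φ : Finset Ed → ℝ} {j : ℕ}
    (hj : 1 ≤ x / 2 ^ j) (z : ℤ × ℤ) (ω : Cfg) {a : ℝ} (ha : 0 ≤ a)
    (hφ : ∀ ℓ, IsLoop ω ℓ → Small (x / 2 ^ j) ℓ → |φ ℓ| ≤ a) :
    |XX ρ x φ j z ω| ≤ a * ((BL (gp ⌈x / 2 ^ j⌉ z) (2 * (⌈x / 2 ^ j⌉ : ℝ))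
      (1 / 8 * (2 * (⌈x / 2 ^ j⌉ : ℝ))) ω).ncard : ℝ) := by
  classical
  set L : ℤ := ⌈x / 2 ^ j⌉ with hL
  have hL0 : 0 < L := Int.ceil_pos.2 (by linarith)
  set F := (sf ρ x ω).filter (fun ℓ => cl x ℓ = j ∧ zz L ℓ = z) with hF
  have h1 : ∀ ℓ ∈ F, IsLoop ω ℓ ∧ Small (x / 2 ^ j) ℓ ∧ ¬ Small (x / 2 ^ (j + 1)) ℓ ∧
      zz L ℓ = z := by
    intro ℓ hℓ
    rw [hF, Finset.mem_filter] at hℓ
    have h2 := scale_of hJ hℓ.1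
    rw [hℓ.2.1] at h2
    exact ⟨(mem_sf.1 hℓ.1).1, h2.2.1, h2.2.2, hℓ.2.2⟩
  have h2 : |XX ρ x φ j z ω| ≤ F.card * a := by
    unfold XX
    rw [← hL, ← hF]
    refine (Finset.abs_sum_le_sum_abs _ _).trans ?_
    calc ∑ ℓ ∈ F, |φ ℓ| ≤ ∑ _ℓ ∈ F, a := Finset.sum_le_sum fun ℓ hℓ => hφ ℓ (h1 ℓ hℓ).1 (h1 ℓ hℓ).2.1
      _ = _ := by rw [Finset.sum_const, nsmul_eq_mul]
  have h3 : F.card ≤ (BL (gp L z) (2 * (L : ℝ)) (1 / 8 * (2 * (L : ℝ))) ω).ncard := by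
    rw [← Set.ncard_coe_finset]
    refine Set.ncard_le_ncard ?_ (BL_fin s_two _ _ _ ω)
    intro ℓ hℓ
    obtain ⟨g1, g2, g3, g4⟩ := h1 ℓ (Finset.mem_coe.1 hℓ)
    refine ⟨g1, ?_, fun hs => g3 (Small.mono ?_ hs)⟩
    · obtain ⟨v, hv⟩ := vs_nonempty g1
      refine ⟨v, hv, ?_⟩
      have h5 := box_of_small g2 hv
      rw [← hL, g4] at h5
      obtain ⟨b1, b2, b3, b4⟩ := h5
      have h6 : nm (v - gp L z) ≤ 2 * L := by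
        rw [nm_le]
        simp only [gp, Prod.fst_sub, Prod.snd_sub, abs_le]
        refine ⟨⟨?_, ?_⟩, ?_, ?_⟩ <;> linarith
      exact_mod_cast h6
    · have h5 : (L : ℝ) ≤ 2 * (x / 2 ^ j) := by
        have := Int.ceil_lt_add_one (x / 2 ^ j)
        rw [← hL] at this
        linarith
      have h6 : x / 2 ^ (j + 1) = x / 2 ^ j / 2 := by rw [pow_succ]; field_simp
      rw [h6]; linarith
  calc |XX ρ x φ j z ω| ≤ F.card * a := h2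
    _ ≤ ((BL (gp L z) (2 * (L : ℝ)) (1 / 8 * (2 * (L : ℝ))) ω).ncard : ℝ) * a :=
        mul_le_mul_of_nonneg_right (by exact_mod_cast h3) ha
    _ = _ := by ring

/-- Colour of a box. -/
def code (z : ℤ × ℤ) : Fin 4 := ⟨(z.1 % 2).toNat * 2 + (z.2 % 2).toNat, by omega⟩

theorem code_eq {z z' : ℤ × ℤ} (h : code z = code z') : z.1 % 2 = z'.1 % 2 ∧ z.2 % 2 = z'.2 % 2 := by
  unfold code at h
  rw [Fin.mk.injEq] at h
  omega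

/-- The boxes of scale `j` which matter, and their number. -/
theorem grid_scale {κ ρ : ℝ} (hκ : 0 < κ) (hκ1 : κ ≤ 1 / 8) (hρ : 4 ≤ ρ) : ∃ Ig : ℕ → Finset (ℤ × ℤ),
    ∀ j : ℕ, 1 ≤ κ * ρ / 2 ^ j → ((Ig j).card : ℝ) ≤ 400 / κ ^ 2 * 4 ^ j ∧
      ∀ ω, ∀ ℓ ∈ sf ρ (κ * ρ) ω, zz ⌈κ * ρ / 2 ^ j⌉ ℓ ∈ Ig j := by
  classical
  have hex : ∀ j : ℕ, ∃ I : Finset (ℤ × ℤ), 1 ≤ κ * ρ / 2 ^ j → (I.card : ℝ) ≤ 400 / κ ^ 2 * 4 ^ j ∧
      ∀ ω, ∀ ℓ ∈ sf ρ (κ * ρ) ω, zz ⌈κ * ρ / 2 ^ j⌉ ℓ ∈ I := by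
    intro j
    by_cases hj : 1 ≤ κ * ρ / 2 ^ j
    · set y : ℝ := κ * ρ / 2 ^ j with hy
      set L : ℤ := ⌈y⌉ with hL
      have hL1 : 1 ≤ L := Int.one_le_ceil_iff.2 (by linarith)
      have hyL : y ≤ L := Int.le_ceil y
      have hLy : (L : ℝ) ≤ 2 * y := by
        have := Int.ceil_lt_add_one y
        rw [← hL] at this
        linarith
      set P : ℤ := ⌈3 * ρ⌉ + L with hP
      have hP0 : 0 ≤ P := by
        have : 0 ≤ ⌈3 * ρ⌉ := Int.ceil_nonneg (by linarith)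
        omega
      obtain ⟨I, hI1, hI2⟩ := grid_fin 0 hL1 hP0
      refine ⟨I, fun _ => ⟨?_, ?_⟩⟩
      · have h1 : ((I.card : ℤ) : ℝ) ≤ ((2 * P / L + 2 : ℤ) : ℝ) ^ 2 := by exact_mod_cast hI2
        have h2 : ((2 * P / L : ℤ) : ℝ) ≤ 2 * P / L := by
          have hLR : (0 : ℝ) < L := by exact_mod_cast (by omega : 0 < L)
          rw [le_div_iff₀ hLR]
          exact_mod_cast Int.ediv_mul_le (2 * P) (by omega : L ≠ 0)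
        have h3 : (P : ℝ) ≤ 3 * ρ + 1 + L := by
          rw [hP]; push_cast
          linarith [Int.ceil_lt_add_one (3 * ρ)]
        have hLR : (0 : ℝ) < L := by exact_mod_cast (by omega : 0 < L)
        have hy0 : 0 < y := by linarith
        have h4 : (2 * P : ℝ) / L ≤ 7 * ρ / y + 2 := by
          rw [div_le_iff₀ hLR]
          have h5 : 7 * ρ ≤ 7 * ρ / y * L := by
            rw [div_mul_eq_mul_div, le_div_iff₀ hy0]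
            exact mul_le_mul_of_nonneg_left hyL (by linarith)
          nlinarith
        have h5 : ρ / y = 2 ^ j / κ := by
          rw [hy]; field_simp
        have h6 : 7 * ρ / y + 2 + 2 ≤ 20 * (2 ^ j / κ) := by
          have h7 : 7 * ρ / y = 7 * (2 ^ j / κ) := by rw [mul_div_assoc, h5]
          have h8 : (8 : ℝ) ≤ 2 ^ j / κ := by
            rw [le_div_iff₀ hκ]
            have : (1 : ℝ) ≤ 2 ^ j := one_le_pow₀ (by norm_num)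
            linarith
          rw [h7]; linarith
        have h7 : ((2 * P / L + 2 : ℤ) : ℝ) ≤ 20 * (2 ^ j / κ) := by
          push_cast; linarith
        have h8 : (0 : ℝ) ≤ ((2 * P / L + 2 : ℤ) : ℝ) := by
          have : 0 ≤ 2 * P / L := Int.ediv_nonneg (by omega) (by omega)
          exact_mod_cast (by omega : (0 : ℤ) ≤ 2 * P / L + 2)
        have h9 : ((I.card : ℤ) : ℝ) = (I.card : ℝ) := by norm_cast
        rw [h9] at h1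
        calc (I.card : ℝ) ≤ ((2 * P / L + 2 : ℤ) : ℝ) ^ 2 := h1
          _ ≤ (20 * (2 ^ j / κ)) ^ 2 := pow_le_pow_left₀ h8 h7 2
          _ = 400 / κ ^ 2 * 4 ^ j := by
              have : (4 : ℝ) ^ j = (2 ^ j) ^ 2 := by
                rw [← pow_mul, mul_comm, pow_mul]; norm_num
              rw [this]; field_simp; norm_num
      · intro ω ℓ hℓ
        rw [mem_sf] at hℓ
        obtain ⟨g1, ⟨u, hu, -, g2⟩, g3⟩ := hℓ
        apply hI1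
        rw [sub_zero]
        obtain ⟨b1, b2, b3, b4⟩ := zz_box (by omega : 0 < L) ℓ
        obtain ⟨c1, c2⟩ := small_box g3 hu
        obtain ⟨e1, e2⟩ := bs_le hu
        have hk8 : κ * ρ ≤ ρ / 8 := by nlinarith
        have f1 : |u.1| ≤ nm u := le_max_left _ _
        have f2 : |u.2| ≤ nm u := le_max_right _ _
        have f1' : ((|u.1| : ℤ) : ℝ) ≤ 2 * ρ + 2 := le_trans (by exact_mod_cast f1) g2
        have f2' : ((|u.2| : ℤ) : ℝ) ≤ 2 * ρ + 2 := le_trans (by exact_mod_cast f2) g2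
        push_cast at f1' f2' c1 c2
        rw [abs_le] at f1' f2'
        have hbb : ∀ b w : ℤ, ((b : ℤ) : ℝ) ≤ w → ((w : ℤ) : ℝ) - b < κ * ρ → -(2 * ρ + 2) ≤ (w : ℝ) →
            (w : ℝ) ≤ 2 * ρ + 2 → -⌈3 * ρ⌉ ≤ b ∧ b ≤ ⌈3 * ρ⌉ := by
          intro b w q1 q2 q3 q4
          have q5 : (b : ℝ) ≤ 3 * ρ := by linarith
          have q6 : -(3 * ρ) ≤ (b : ℝ) := by linarith
          constructor
          · have : (-b : ℝ) ≤ ⌈3 * ρ⌉ := le_trans (by linarith) (Int.le_ceil (3 * ρ))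
            have : -b ≤ ⌈3 * ρ⌉ := by exact_mod_cast this
            omega
          · have : (b : ℝ) ≤ ⌈3 * ρ⌉ := le_trans q5 (Int.le_ceil (3 * ρ))
            exact_mod_cast this
        obtain ⟨k1, k2⟩ := hbb (bs ℓ).1 u.1 (by exact_mod_cast e1) c1 f1'.1 f1'.2
        obtain ⟨k3, k4⟩ := hbb (bs ℓ).2 u.2 (by exact_mod_cast e2) c2 f2'.1 f2'.2
        rw [nm_le]
        simp only [gp]
        rw [abs_le, abs_le]
        refine ⟨⟨?_, ?_⟩, ?_, ?_⟩ <;> linarith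
    · exact ⟨∅, fun h => absurd h hj⟩
  choose Ig hIg using hex
  exact ⟨Ig, hIg⟩

/-- The decomposition. -/
theorem decomp {ρ x : ℝ} {J : ℕ} (hJ : x / 2 ^ J ≤ 1) (hJ' : ∀ j < J, 1 ≤ x / 2 ^ j)
    {Ig : ℕ → Finset (ℤ × ℤ)}
    (hIg : ∀ j, 1 ≤ x / 2 ^ j → ∀ ω, ∀ ℓ ∈ sf ρ x ω, zz ⌈x / 2 ^ j⌉ ℓ ∈ Ig j)
    (φ : Finset Ed → ℝ) (ω : Cfg) :
    ∑ ℓ ∈ sf ρ x ω, φ ℓ = ∑ j ∈ Finset.range J, ∑ z ∈ Ig j, XX ρ x φ j z ω := by
  classical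
  have h1 : ∑ ℓ ∈ sf ρ x ω, φ ℓ =
      ∑ j ∈ Finset.range J, ∑ ℓ ∈ (sf ρ x ω).filter (fun ℓ => cl x ℓ = j), φ ℓ := by
    rw [Finset.sum_fiberwise_of_maps_to]
    intro ℓ hℓ
    exact Finset.mem_range.2 (scale_of hJ hℓ).1
  rw [h1]
  refine Finset.sum_congr rfl fun j hj => ?_
  unfold XX
  have h2 : ∑ ℓ ∈ (sf ρ x ω).filter (fun ℓ => cl x ℓ = j), φ ℓ =
      ∑ z ∈ Ig j, ∑ ℓ ∈ ((sf ρ x ω).filter (fun ℓ => cl x ℓ = j)).filter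
        (fun ℓ => zz ⌈x / 2 ^ j⌉ ℓ = z), φ ℓ := by
    rw [Finset.sum_fiberwise_of_maps_to]
    intro ℓ hℓ
    exact hIg j (hJ' j (Finset.mem_range.1 hj)) ω ℓ (Finset.mem_filter.1 hℓ).1
  rw [h2]
  refine Finset.sum_congr rfl fun z _ => ?_
  rw [Finset.filter_filter]

end Vale.Agent.P167.H45
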