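import Vale.Agent.P167.Iface
import Vale.Agent.P167.H562.EAbs
import Vale.Agent.P167.H562.Local

/-!
# P167, block E: counting loops which visit a finite region, measurability, Hoelder for local
variables
-/

namespace Vale.Agent.P167.H45

open Finset Filter Topology MeasureTheory ProbabilityTheory
open Vale.Agent.P167.H562

/-! ### sup norm -/

theorem nm_nonneg (v : ℤ × ℤ) : 0 ≤ nm v := le_max_of_le_left (abs_nonneg _)

theorem nm_le {v : ℤ × ℤ} {r : ℤ} : nm v ≤ r ↔ |v.1| ≤ r ∧ |v.2| ≤ r := max_le_iff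

theorem nm_add_le (u v : ℤ × ℤ) : nm (u + v) ≤ nm u + nm v := by
  rw [nm_le]
  exact ⟨(abs_add_le _ _).trans (add_le_add (le_max_left _ _) (le_max_left _ _)),
    (abs_add_le _ _).trans (add_le_add (le_max_right _ _) (le_max_right _ _))⟩

theorem nm_neg (v : ℤ × ℤ) : nm (-v) = nm v := by
  unfold nm; simp

theorem nm_sub_comm (u v : ℤ × ℤ) : nm (u - v) = nm (v - u) := by
  rw [← nm_neg, neg_sub]

theorem nm_sub_le (u v w : ℤ × ℤ) : nm (u - w) ≤ nm (u - v) + nm (v - w) := by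
  have := nm_add_le (u - v) (v - w)
  rwa [sub_add_sub_cancel] at this

/-! ### loops -/

theorem IsLoop.nonempty {ω : Cfg} {ℓ : Finset Ed} (h : IsLoop ω ℓ) : ℓ.Nonempty := by
  obtain ⟨e, he⟩ := h
  exact ⟨e, (he e).2 ⟨0, rfl⟩⟩

/-- The four edges next to a square. -/
def four (v : ℤ × ℤ) : Finset Ed :=
  {Sum.inl v, Sum.inl (v.1 - 1, v.2), Sum.inr v, Sum.inr (v.1, v.2 - 1)}

theorem four_card (v : ℤ × ℤ) : (four v).card ≤ 4 := Finset.card_le_four

theorem mem_four (e : Ed) : e ∈ four (hdv e) := by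
  rcases e with ⟨x, y⟩ | ⟨x, y⟩ <;> unfold hdv <;> dsimp only <;> split_ifs <;> simp [four]

/-- The edges whose head is in `B`. -/
noncomputable def eds (B : Finset (ℤ × ℤ)) : Finset Ed := B.biUnion four

theorem eds_card (B : Finset (ℤ × ℤ)) : (eds B).card ≤ 4 * B.card := by
  unfold eds
  refine Finset.card_biUnion_le.trans ?_
  rw [mul_comm, ← smul_eq_mul]
  exact Finset.sum_le_card_nsmul _ _ _ fun v _ => four_card v

theorem exists_edge {ℓ : Finset Ed} {B : Finset (ℤ × ℤ)} (h : ∃ v ∈ vs ℓ, v ∈ B) :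
    ∃ e ∈ ℓ, e ∈ eds B := by
  obtain ⟨v, hv, hB⟩ := h
  unfold vs at hv
  rw [Finset.mem_image] at hv
  obtain ⟨e, he, rfl⟩ := hv
  exact ⟨e, he, Finset.mem_biUnion.2 ⟨_, hB, mem_four e⟩⟩

/-- Loops which visit `B`. -/
def LV (B : Finset (ℤ × ℤ)) (ω : Cfg) : Set (Finset Ed) := {ℓ | IsLoop ω ℓ ∧ ∃ v ∈ vs ℓ, v ∈ B}

theorem LV_inj (h2 : S_two) (B : Finset (ℤ × ℤ)) (ω : Cfg) : ∃ g : Finset Ed → Ed,
    (∀ ℓ ∈ LV B ω, g ℓ ∈ eds B) ∧ Set.InjOn g (LV B ω) := by
  classical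
  have h : ∀ ℓ : Finset Ed, ∃ e : Ed, ℓ ∈ LV B ω → e ∈ ℓ ∧ e ∈ eds B := by
    intro ℓ
    by_cases hl : ℓ ∈ LV B ω
    · obtain ⟨e, he, he'⟩ := exists_edge hl.2
      exact ⟨e, fun _ => ⟨he, he'⟩⟩
    · exact ⟨Sum.inl 0, fun h => absurd h hl⟩
  choose g hg using h
  refine ⟨g, fun ℓ hl => (hg ℓ hl).2, fun ℓ hl ℓ' hl' he => ?_⟩
  by_contra hne
  have h3 := (h2 ω ℓ ℓ' hl.1 hl'.1 hne).1 (g ℓ') (hg ℓ' hl').1
  rw [← he] at h3
  exact h3 (hg ℓ hl).1

theorem LV_fin (h2 : S_two) (B : Finset (ℤ × ℤ)) (ω : Cfg) : (LV B ω).Finite := by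
  obtain ⟨g, h1, h3⟩ := LV_inj h2 B ω
  exact Set.Finite.of_injOn h1 h3 (Finset.finite_toSet _)

theorem LV_ncard (h2 : S_two) (B : Finset (ℤ × ℤ)) (ω : Cfg) : (LV B ω).ncard ≤ 4 * B.card := by
  obtain ⟨g, h1, h3⟩ := LV_inj h2 B ω
  calc (LV B ω).ncard ≤ ((eds B : Finset Ed) : Set Ed).ncard :=
        Set.ncard_le_ncard_of_injOn g h1 h3 (Finset.finite_toSet _)
    _ = (eds B).card := Set.ncard_coe_finset _
    _ ≤ _ := eds_card B

/-! ### measurability -/

theorem meas_loc {A : Set Cfg} (F : Finset (ℤ × ℤ))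
    (h : ∀ ω ω' : Cfg, (∀ v ∈ F, ω v = ω' v) → ω ∈ A → ω' ∈ A) : MeasurableSet A := by
  classical
  have hm : Measurable (fun (ω : Cfg) (v : F) => ω v) := by
    rw [measurable_pi_iff]
    intro v
    exact measurable_pi_apply _
  have : A = (fun (ω : Cfg) (v : F) => ω v) ⁻¹' ((fun (ω : Cfg) (v : F) => ω v) '' A) := by
    ext ω
    constructor
    · exact fun hω => ⟨ω, hω, rfl⟩
    · rintro ⟨ω', h1, h2⟩
      exact h ω' ω (fun v hv => congrFun h2 ⟨v, hv⟩) h1
  rw [this]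
  exact hm (Set.Finite.measurableSet (Set.toFinite _))

theorem meas_locfun {β : Type*} [MeasurableSpace β] {X : Cfg → β} (F : Finset (ℤ × ℤ))
    (h : ∀ ω ω' : Cfg, (∀ v ∈ F, ω v = ω' v) → X ω = X ω') : Measurable X := by
  intro B _
  refine meas_loc F fun ω ω' hw hω => ?_
  rw [Set.mem_preimage] at hω ⊢
  rwa [← h ω ω' hw]

theorem meas_IsLoop (hl : S_loc) (ℓ : Finset Ed) : MeasurableSet {ω : Cfg | IsLoop ω ℓ} :=
  meas_loc (vs ℓ) fun ω ω' hw hω => hl ω ω' ℓ hω hw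

theorem meas_ncard {Ω ι : Type*} [MeasurableSpace Ω] [Countable ι] {S : Ω → Set ι}
    (h : ∀ i, MeasurableSet {ω | i ∈ S ω}) (hf : ∀ ω, (S ω).Finite) :
    Measurable (fun ω => (S ω).ncard) := by
  refine measurable_of_Ici fun k => ?_
  have : (fun ω => (S ω).ncard) ⁻¹' Set.Ici k =
      ⋃ T : {T : Finset ι // T.card = k}, ⋂ i ∈ (T : Finset ι), {ω | i ∈ S ω} := by
    ext ω
    simp only [Set.mem_preimage, Set.mem_Ici, Set.mem_iUnion, Set.mem_iInter, Set.mem_ofPred_eq]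
    constructor
    · intro hk
      obtain ⟨t, ht, hc⟩ := Set.exists_subset_card_eq (s := S ω) hk
      have htf : t.Finite := (hf ω).subset ht
      refine ⟨⟨htf.toFinset, ?_⟩, fun i hi => ht (by simpa using hi)⟩
      rw [← Set.ncard_eq_toFinset_card t htf, hc]
    · rintro ⟨⟨T, hT⟩, h1⟩
      dsimp only at h1
      rw [← hT, ← Set.ncard_coe_finset]
      exact Set.ncard_le_ncard (fun i hi => h1 i hi) (hf ω)
  rw [this]
  exact MeasurableSet.iUnion fun T => Finset.measurableSet_biInter _ fun i _ => h i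

/-- The number of the loops which visit `B` and have a given property is measurable. -/
theorem meas_count (h2 : S_two) (hl : S_loc) (B : Finset (ℤ × ℤ)) (Q : Finset Ed → Prop) :
    Measurable (fun ω => Set.ncard {ℓ | ℓ ∈ LV B ω ∧ Q ℓ}) := by
  classical
  refine meas_ncard (fun ℓ => ?_) fun ω => (LV_fin h2 B ω).subset fun ℓ h => h.1
  by_cases h : (∃ v ∈ vs ℓ, v ∈ B) ∧ Q ℓ
  · have : {ω : Cfg | ℓ ∈ {ℓ | ℓ ∈ LV B ω ∧ Q ℓ}} = {ω | IsLoop ω ℓ} := by
      ext ω
      simp only [Set.mem_ofPred_eq, LV]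
      tauto
    rw [this]; exact meas_IsLoop hl ℓ
  · have : {ω : Cfg | ℓ ∈ {ℓ | ℓ ∈ LV B ω ∧ Q ℓ}} = ∅ := by
      ext ω
      simp only [Set.mem_ofPred_eq, LV, Set.mem_empty_iff_false, iff_false]
      exact fun h' => h ⟨h'.1.2, h'.2⟩
    rw [this]; exact MeasurableSet.empty

/-! ### independence of the coordinates -/

theorem iInd : iIndepFun (fun (v : ℤ × ℤ) (ω : Cfg) => ω v) μ := by
  unfold μ
  exact iIndepFun_infinitePi (P := fun _ : ℤ × ℤ => fair) (X := fun _ => id)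
    (fun _ => measurable_id)

/-- Hoelder over colour classes, independence inside of the classes. -/
theorem Em_col {ι κ : Type*} [Fintype κ] [Nonempty κ] [DecidableEq κ] (I : Finset ι) (col : ι → κ)
    (S : ι → Set (ℤ × ℤ))
    (hS : ∀ i ∈ I, ∀ j ∈ I, i ≠ j → col i = col j → Disjoint (S i) (S j))
    {Z : ι → Cfg → ℝ} (hm : ∀ i ∈ I, Measurable (Z i)) (hl : ∀ i ∈ I, LocFun (S i) (Z i)) {b : ℝ}
    (hb : 0 ≤ b) (hB : ∀ i ∈ I, Em μ (fun ω => (Fintype.card κ : ℝ) * Z i ω) ≤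
      ENNReal.ofReal (Real.exp b)) :
    Em μ (fun ω => ∑ i ∈ I, Z i ω) ≤ ENNReal.ofReal (Real.exp (I.card * b)) := by
  classical
  set c : ℕ := Fintype.card κ with hcdef
  have hc : 0 < c := Fintype.card_pos
  have hc' : (0 : ℝ) < c := by exact_mod_cast hc
  have hc1 : (1 : ℝ) ≤ c := by exact_mod_cast hc
  have h1 := Em_holder (μ := μ) (Finset.univ : Finset κ)
    (Y := fun k ω => ∑ i ∈ I with col i = k, Z i ω)
    (fun k _ => Finset.measurable_fun_sum _ fun i hi => hm i (Finset.mem_filter.1 hi).1)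
    (θ := fun _ => (1 : ℝ) / c) (B := fun k => ((I.filter (fun i => col i = k)).card : ℝ) * b)
    (fun _ _ => by positivity) (by
      rw [Finset.sum_const, Finset.card_univ, ← hcdef, nsmul_eq_mul]
      field_simp; rfl) (fun k _ => by
      have e1 : (fun ω => ((1 : ℝ) / c)⁻¹ * ∑ i ∈ I with col i = k, Z i ω) =
          fun ω => ∑ i ∈ I with col i = k, (c : ℝ) * Z i ω := by
        ext ω; rw [one_div, inv_inv, Finset.mul_sum]
      rw [e1]
      set J := I.filter (fun i => col i = k) with hJ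
      have hJm : ∀ i ∈ J, i ∈ I := fun i hi => (Finset.mem_filter.1 hi).1
      have hind : iIndepFun (fun i : J => Z i) μ := by
        refine iIndepFun_of_local iInd (S := fun i : J => S i) ?_ (fun i => hm i (hJm i i.2))
          (fun i => hl i (hJm i i.2))
        intro i j hij
        have hi : (i : ι) ∈ I ∧ col i = k := Finset.mem_filter.1 i.2
        have hj : (j : ι) ∈ I ∧ col j = k := Finset.mem_filter.1 j.2
        exact hS i hi.1 j hj.1 (fun h => hij (Subtype.ext h)) (hi.2.trans hj.2.symm)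
      have h2 : iIndepFun (fun (i : J) ω => ENNReal.ofReal (Real.exp ((c : ℝ) * Z i ω))) μ :=
        hind.comp (fun i y => ENNReal.ofReal (Real.exp ((c : ℝ) * y))) (fun i => by fun_prop)
      have h3 := lintegral_prod_eq_prod_lintegral_of_indepFun (Finset.univ : Finset J) _ h2
        (fun i => by have := hm i (hJm i i.2); fun_prop)
      have e2 : Em μ (fun ω => ∑ i ∈ J, (c : ℝ) * Z i ω) =
          ∏ i ∈ J, Em μ (fun ω => (c : ℝ) * Z i ω) := by
        unfold Em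
        rw [← Finset.prod_coe_sort J, ← h3]
        congr 1
        ext ω
        rw [← ENNReal.ofReal_prod_of_nonneg (fun i _ => (Real.exp_pos _).le), ← Real.exp_sum,
          Finset.sum_coe_sort J (fun i => (c : ℝ) * Z i ω)]
      rw [e2]
      calc ∏ i ∈ J, Em μ (fun ω => (c : ℝ) * Z i ω)
          ≤ ∏ _i ∈ J, ENNReal.ofReal (Real.exp b) :=
            Finset.prod_le_prod' fun i hi => hB i (hJm i hi)
        _ = _ := by
            rw [Finset.prod_const, ← ENNReal.ofReal_pow (Real.exp_pos _).le, ← Real.exp_nat_mul])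
  have e3 : (fun ω => ∑ k : κ, ∑ i ∈ I with col i = k, Z i ω) =
      fun ω => ∑ i ∈ I, Z i ω := by
    ext ω
    exact Finset.sum_fiberwise I col (fun i => Z i ω)
  rw [e3] at h1
  refine h1.trans (ENNReal.ofReal_le_ofReal (Real.exp_le_exp.2 ?_))
  rw [← Finset.mul_sum, ← Finset.sum_mul]
  have e4 : ∑ k : κ, ((I.filter (fun i => col i = k)).card : ℝ) = I.card := by
    rw [← Nat.cast_sum]
    congr 1
    exact (Finset.card_eq_sum_card_fiberwise
      (fun i _ => Finset.mem_coe.2 (Finset.mem_univ (col i)))).symm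
  rw [e4]
  have h5 : 0 ≤ (I.card : ℝ) * b := by positivity
  have h6 : (1 : ℝ) / c ≤ 1 := by
    rw [div_le_one hc']; exact hc1
  nlinarith

end Vale.Agent.P167.H45
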