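import Vale.Agent.P167.H45.Cross

/-!
# P167, block E1: exponential moments of the number of large loops
-/

namespace Vale.Agent.P167.H45

open Finset Filter Topology MeasureTheory ProbabilityTheory
open Vale.Agent.P167.H562

/-- The loops which visit the box of radius `ρ` around `c` and have diameter at least `d`. -/
def BL (c : ℤ × ℤ) (ρ d : ℝ) (ω : Cfg) : Set (Finset Ed) :=
  {ℓ | IsLoop ω ℓ ∧ (∃ v ∈ vs ℓ, (nm (v - c) : ℝ) ≤ ρ) ∧ ¬ Small d ℓ}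

theorem BL_eq (c : ℤ × ℤ) (ρ d : ℝ) : ∃ B : Finset (ℤ × ℤ), (∀ v, v ∈ B ↔ nm (v - c) ≤ ⌊ρ⌋) ∧
    ∀ ω, BL c ρ d ω = {ℓ | ℓ ∈ LV B ω ∧ ¬ Small d ℓ} := by
  obtain ⟨B, hB⟩ := box_fin c ⌊ρ⌋
  refine ⟨B, hB, fun ω => ?_⟩
  ext ℓ
  simp only [BL, LV, Set.mem_ofPred_eq, hB, Int.le_floor, and_assoc]

theorem BL_fin (h2 : S_two) (c : ℤ × ℤ) (ρ d : ℝ) (ω : Cfg) : (BL c ρ d ω).Finite := by
  obtain ⟨B, -, h⟩ := BL_eq c ρ d
  rw [h]
  exact (LV_fin h2 B ω).subset fun ℓ hl => hl.1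

theorem BL_meas (h2 : S_two) (hl : S_loc) (c : ℤ × ℤ) (ρ d : ℝ) :
    Measurable (fun ω => (BL c ρ d ω).ncard) := by
  obtain ⟨B, -, h⟩ := BL_eq c ρ d
  simp only [h]
  exact meas_count h2 hl B _

theorem exists_pq {ρ d : ℝ} {c : ℤ × ℤ} {ω : Cfg} {ℓ : Finset Ed} (h : ℓ ∈ BL c ρ d ω) :
    ∃ p ∈ vs ℓ, ∃ q ∈ vs ℓ, (nm (p - c) : ℝ) ≤ ρ ∧ d / 2 ≤ (nm (q - p) : ℝ) := by
  obtain ⟨-, ⟨p, hp, hpc⟩, h3⟩ := h
  unfold Small at h3
  push Not at h3
  obtain ⟨u, hu, v, hv, h4⟩ := h3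
  have h5 : (nm (u - v) : ℝ) ≤ nm (u - p) + nm (p - v) := by exact_mod_cast nm_sub_le _ _ _
  rw [nm_sub_comm p v] at h5
  by_cases h6 : d / 2 ≤ (nm (u - p) : ℝ)
  · exact ⟨p, hp, u, hu, hpc, h6⟩
  · exact ⟨p, hp, v, hv, hpc, by linarith⟩

/-- The indices of the grid points of mesh `r` at distance at most `P` of `c`. -/
theorem grid_fin (c : ℤ × ℤ) {r P : ℤ} (hr : 1 ≤ r) (hP : 0 ≤ P) : ∃ J : Finset (ℤ × ℤ),
    (∀ z, nm (gp r z - c) ≤ P → z ∈ J) ∧ (J.card : ℤ) ≤ (2 * P / r + 2) ^ 2 := by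
  have h1 : ∀ a : ℤ, ((Finset.Icc ((a - P) / r) ((a + P) / r)).card : ℤ) ≤ 2 * P / r + 2 := by
    intro a
    rw [Int.card_Icc]
    have h2 : (a + P) / r ≤ (a - P) / r + 2 * P / r + 1 := by
      have e1 := Int.emod_add_mul_ediv (a + P) r
      have e2 := Int.emod_add_mul_ediv (a - P) r
      have e3 := Int.emod_add_mul_ediv (2 * P) r
      have f1 := Int.emod_nonneg (a + P) (by omega : r ≠ 0)
      have f2 := Int.emod_lt_of_pos (a - P) (by omega : 0 < r)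
      have f3 := Int.emod_lt_of_pos (2 * P) (by omega : 0 < r)
      by_contra hcon
      push Not at hcon
      have : r * ((a - P) / r + 2 * P / r + 2) ≤ r * ((a + P) / r) :=
        mul_le_mul_of_nonneg_left (by omega) (by omega)
      nlinarith
    have h3 : 0 ≤ 2 * P / r := Int.ediv_nonneg (by omega) (by omega)
    omega
  refine ⟨(Finset.Icc ((c.1 - P) / r) ((c.1 + P) / r)) ×ˢ
    (Finset.Icc ((c.2 - P) / r) ((c.2 + P) / r)), fun z hz => ?_, ?_⟩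
  · rw [nm_le] at hz
    simp only [gp, Prod.fst_sub, Prod.snd_sub, abs_le] at hz
    rw [Finset.mem_product, Finset.mem_Icc, Finset.mem_Icc]
    have aux : ∀ a w : ℤ, -P ≤ r * w - a → r * w - a ≤ P → (a - P) / r ≤ w ∧ w ≤ (a + P) / r := by
      intro a w h1 h2
      constructor
      · exact Int.ediv_le_of_le_mul (by omega) (by rw [mul_comm]; omega)
      · rw [Int.le_ediv_iff_mul_le (by omega), mul_comm]; omega
    exact ⟨aux _ _ hz.1.1 hz.1.2, aux _ _ hz.2.1 hz.2.2⟩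
  · rw [Finset.card_product, Nat.cast_mul, sq]
    exact mul_le_mul (h1 _) (h1 _) (by positivity)
      (by have : 0 ≤ 2 * P / r := Int.ediv_nonneg (by omega) (by omega)
          omega)

/-- Uniform bound for the exponential moments of the number of large loops. -/
theorem large_gen (hX : S_crossL) (hcon : S_con) (h2 : S_two) (κ s : ℝ) (hκ : 0 < κ) :
    ∃ C : ℝ, ∀ (c : ℤ × ℤ) (ρ : ℝ), 1 ≤ ρ →
      Em μ (fun ω => s * ((BL c ρ (κ * ρ) ω).ncard : ℝ)) ≤ ENNReal.ofReal C := by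
  classical
  obtain ⟨k, l, C0, hk, hl, h⟩ := hX
  choose! Z hZ1 hZ2 hZ3 using h
  obtain ⟨θ, b, hθ, hb, hEm⟩ := Em_cross hk hl hZ1 hZ3
  obtain ⟨n, hn⟩ := exists_nat_ge (|s| / θ)
  have hsn : |s| ≤ θ * (n + 1 : ℕ) := by
    rw [div_le_iff₀ hθ] at hn
    push_cast
    nlinarith
  set N : ℕ := n + 1 with hN
  have hN1 : (1 : ℝ) ≤ N := by rw [hN]; push_cast; linarith [Nat.cast_nonneg (α := ℝ) n]
  have hkR : (2 : ℝ) ≤ k := by exact_mod_cast hk
  set a : ℝ := 4 * (k + 3) * N with ha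
  have ha0 : 0 < a := by positivity
  set ρ1 : ℝ := a / κ with hρ1
  set D : ℝ := (4 * (1 + κ) * (a / κ) + 2) ^ 2 with hD
  refine ⟨max (Real.exp (D * b)) (Real.exp (|s| * (4 * (2 * ρ1 + 1) ^ 2))), fun c ρ hρ => ?_⟩
  by_cases hρ1' : ρ1 ≤ ρ
  · -- the main case
    refine le_trans ?_ (ENNReal.ofReal_le_ofReal (le_max_left _ _))
    have hxa : 1 ≤ κ * ρ / a := by
      rw [hρ1, div_le_iff₀ hκ] at hρ1'
      rw [one_le_div ha0]; linarith
    set r : ℤ := ⌊κ * ρ / a⌋ with hr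
    have hr1 : 1 ≤ r := by rw [hr, Int.le_floor]; exact_mod_cast hxa
    have hrle : (r : ℝ) ≤ κ * ρ / a := Int.floor_le _
    have hrge : κ * ρ / a ≤ 2 * r := by
      have := Int.lt_floor_add_one (κ * ρ / a)
      have h1 : (1 : ℝ) ≤ r := by exact_mod_cast hr1
      rw [← hr] at this
      linarith
    have hrle' : a * r ≤ κ * ρ := by
      rw [le_div_iff₀ ha0] at hrle; linarith
    have hr1' : (1 : ℝ) ≤ r := by exact_mod_cast hr1
    set P : ℤ := ⌊(1 + κ) * ρ⌋ with hP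
    have hP0 : 0 ≤ P := by
      rw [hP]; exact Int.floor_nonneg.2 (by positivity)
    obtain ⟨J, hJ1, hJ2⟩ := grid_fin c hr1 hP0
    have hJcard : (J.card : ℝ) ≤ D := by
      have h1 : ((J.card : ℤ) : ℝ) ≤ ((2 * P / r + 2 : ℤ) : ℝ) ^ 2 := by exact_mod_cast hJ2
      have h3 : ((2 * P / r : ℤ) : ℝ) ≤ 4 * (1 + κ) * (a / κ) := by
        have h4 : ((2 * P / r : ℤ) : ℝ) * r ≤ 2 * P := by
          exact_mod_cast Int.ediv_mul_le (2 * P) (by omega : r ≠ 0)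
        have h5 : (P : ℝ) ≤ (1 + κ) * ρ := Int.floor_le _
        have h6 : (2 * P : ℝ) ≤ 4 * (1 + κ) * (a / κ) * r := by
          have h7 : κ * ρ ≤ 2 * r * a := by rw [div_le_iff₀ ha0] at hrge; linarith
          have h8 : ρ ≤ 2 * r * (a / κ) := by
            rw [mul_div_assoc', le_div_iff₀ hκ]; linarith
          nlinarith
        have h9 : ((2 * P / r : ℤ) : ℝ) * r ≤ 4 * (1 + κ) * (a / κ) * r := by linarith
        exact le_of_mul_le_mul_right h9 (by linarith)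
      have h4 : (0 : ℝ) ≤ ((2 * P / r : ℤ) : ℝ) := by
        exact_mod_cast Int.ediv_nonneg (by omega : (0 : ℤ) ≤ 2 * P) (by omega)
      have h5 : ((2 * P / r + 2 : ℤ) : ℝ) = ((2 * P / r : ℤ) : ℝ) + 2 := by push_cast; rfl
      rw [h5] at h1
      rw [hD]
      have h6 : ((J.card : ℤ) : ℝ) = (J.card : ℝ) := by norm_cast
      rw [h6] at h1
      refine h1.trans ?_
      exact pow_le_pow_left₀ (by linarith) (by linarith) 2
    set I : Finset (ℕ × (ℤ × ℤ)) := {0} ×ˢ J with hI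
    have hEmI := hEm (fun _ => r) (fun _ => hr1) I (fun i hi i' hi' hne => by
      rw [hI, Finset.mem_product, Finset.mem_singleton] at hi hi'
      exact absurd (hi.1.trans hi'.1.symm) hne)
    have hIcard : (I.card : ℝ) = J.card := by rw [hI, Finset.card_product]; simp
    rw [hIcard] at hEmI
    refine le_trans ?_ (hEmI.trans (ENNReal.ofReal_le_ofReal (Real.exp_le_exp.2
      (mul_le_mul_of_nonneg_right hJcard hb))))
    refine Em_mono fun ω => ?_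
    have hcount := count_le h2 (k := k) I (fun i => gp r i.2) (fun _ => r)
      (fun i => Z (gp r i.2) r ω) (ω := ω) (fun i _ => hZ2 (gp r i.2) r hr1 ω)
      (BL_fin h2 c ρ (κ * ρ) ω) (fun ℓ hℓ => hℓ.1) (n := N) (fun ℓ hℓ => by
        obtain ⟨p, hp, q, hq, h5, h6⟩ := exists_pq hℓ
        have h7 : (k + 3) * r * (N : ℕ) < nm (q - p) := by
          have h8 : ((k : ℝ) + 3) * r * N < nm (q - p) := by
            have h9 : 4 * (((k : ℝ) + 3) * r * N) ≤ κ * ρ := by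
              have : a * r = 4 * (((k : ℝ) + 3) * r * N) := by rw [ha]; ring
              linarith
            have : 0 < κ * ρ := by positivity
            linarith
          exact_mod_cast h8
        obtain ⟨T, hT1, hT2⟩ := cross_many hcon hℓ.1 hp hq (by omega) hr1 h7
        refine ⟨T.map ⟨fun z => ((0 : ℕ), z), fun z z' hz => (Prod.ext_iff.1 hz).2⟩, ?_, ?_, ?_⟩
        · intro i hi
          rw [Finset.mem_map] at hi
          obtain ⟨z, hz, rfl⟩ := hi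
          rw [hI, Finset.mem_product]
          refine ⟨Finset.mem_singleton.2 rfl, hJ1 z ?_⟩
          have h8 := (hT2 z hz).2
          have h9 : nm (gp r z - c) ≤ nm (gp r z - p) + nm (p - c) := nm_sub_le _ _ _
          rw [hP, Int.le_floor]
          have h10 : (nm (gp r z - c) : ℝ) ≤ ((k + 3) * r * (N : ℕ) + r) + nm (p - c) := by
            have : nm (gp r z - c) ≤ ((k + 3) * r * (N : ℕ) + r) + nm (p - c) := by linarith
            exact_mod_cast this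
          have h11 : 4 * (((k : ℝ) + 3) * r * N) ≤ κ * ρ := by
            have : a * r = 4 * (((k : ℝ) + 3) * r * N) := by rw [ha]; ring
            linarith
          have h12 : (r : ℝ) ≤ ((k : ℝ) + 3) * r * N := by
            calc (r : ℝ) = 1 * r * 1 := by ring
              _ ≤ ((k : ℝ) + 3) * r * N := by gcongr; linarith
          have h13 : 0 < κ * ρ := by positivity
          have h14 : (1 + κ) * ρ = ρ + κ * ρ := by ring
          push_cast at h10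
          linarith
        · rw [Finset.card_map]; exact hT1
        · intro i hi
          rw [Finset.mem_map] at hi
          obtain ⟨z, hz, rfl⟩ := hi
          exact (hT2 z hz).1)
    have h5 : (N : ℝ) * ((BL c ρ (κ * ρ) ω).ncard : ℝ) ≤ ∑ i ∈ I, (Z (gp r i.2) r ω : ℝ) := by
      exact_mod_cast hcount
    have h6 : (0 : ℝ) ≤ ((BL c ρ (κ * ρ) ω).ncard : ℝ) := by positivity
    calc s * ((BL c ρ (κ * ρ) ω).ncard : ℝ) ≤ |s| * ((BL c ρ (κ * ρ) ω).ncard : ℝ) :=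
          mul_le_mul_of_nonneg_right (le_abs_self s) h6
      _ ≤ θ * N * ((BL c ρ (κ * ρ) ω).ncard : ℝ) := mul_le_mul_of_nonneg_right hsn h6
      _ = θ * (N * ((BL c ρ (κ * ρ) ω).ncard : ℝ)) := by ring
      _ ≤ _ := mul_le_mul_of_nonneg_left h5 hθ.le
  · -- bounded scales
    push Not at hρ1'
    refine le_trans ?_ (ENNReal.ofReal_le_ofReal (le_max_right _ _))
    have hbd : ∀ ω, ((BL c ρ (κ * ρ) ω).ncard : ℝ) ≤ 4 * (2 * ρ1 + 1) ^ 2 := by
      intro ω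
      obtain ⟨J, hJ1, hJ2⟩ := grid_fin c (le_refl (1 : ℤ)) (P := ⌊ρ⌋)
        (Int.floor_nonneg.2 (by linarith))
      obtain ⟨B, hB, hBe⟩ := BL_eq c ρ (κ * ρ)
      have hBe' : B = (Finset.Icc (c.1 - ⌊ρ⌋) (c.1 + ⌊ρ⌋)) ×ˢ
          (Finset.Icc (c.2 - ⌊ρ⌋) (c.2 + ⌊ρ⌋)) := by
        ext v
        rw [hB, nm_le, Finset.mem_product, Finset.mem_Icc, Finset.mem_Icc]
        simp only [Prod.fst_sub, Prod.snd_sub, abs_le]
        omega
      have h1 : (BL c ρ (κ * ρ) ω).ncard ≤ 4 * B.card := by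
        rw [hBe]
        exact (Set.ncard_le_ncard (fun ℓ hl => hl.1) (LV_fin h2 B ω)).trans (LV_ncard h2 B ω)
      have h3 : (B.card : ℝ) ≤ (2 * ρ1 + 1) ^ 2 := by
        rw [hBe', Finset.card_product, Int.card_Icc, Int.card_Icc]
        have h4 : (0 : ℤ) ≤ ⌊ρ⌋ := Int.floor_nonneg.2 (by linarith)
        have h5 : c.1 + ⌊ρ⌋ + 1 - (c.1 - ⌊ρ⌋) = 2 * ⌊ρ⌋ + 1 := by ring
        have h6 : c.2 + ⌊ρ⌋ + 1 - (c.2 - ⌊ρ⌋) = 2 * ⌊ρ⌋ + 1 := by ring
        rw [h5, h6, Nat.cast_mul, ← sq]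
        have h7 : (((2 * ⌊ρ⌋ + 1).toNat : ℕ) : ℝ) = 2 * (⌊ρ⌋ : ℝ) + 1 := by
          have : (((2 * ⌊ρ⌋ + 1).toNat : ℕ) : ℤ) = 2 * ⌊ρ⌋ + 1 := Int.toNat_of_nonneg (by omega)
          exact_mod_cast this
        rw [h7]
        have h8 : (⌊ρ⌋ : ℝ) ≤ ρ1 := (Int.floor_le ρ).trans hρ1'.le
        have h9 : (0 : ℝ) ≤ (⌊ρ⌋ : ℝ) := by exact_mod_cast h4
        exact pow_le_pow_left₀ (by linarith) (by linarith) 2
      calc ((BL c ρ (κ * ρ) ω).ncard : ℝ) ≤ 4 * (B.card : ℝ) := by exact_mod_cast h1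
        _ ≤ _ := by linarith
    unfold Em
    calc ∫⁻ ω, ENNReal.ofReal (Real.exp (s * ((BL c ρ (κ * ρ) ω).ncard : ℝ))) ∂μ
        ≤ ∫⁻ _ω, ENNReal.ofReal (Real.exp (|s| * (4 * (2 * ρ1 + 1) ^ 2))) ∂μ := by
          refine lintegral_mono fun ω => ENNReal.ofReal_le_ofReal (Real.exp_le_exp.2 ?_)
          calc s * ((BL c ρ (κ * ρ) ω).ncard : ℝ) ≤ |s| * ((BL c ρ (κ * ρ) ω).ncard : ℝ) :=
                mul_le_mul_of_nonneg_right (le_abs_self s) (by positivity)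
            _ ≤ _ := mul_le_mul_of_nonneg_left (hbd ω) (abs_nonneg s)
      _ = _ := by rw [lintegral_const, measure_univ, mul_one]

theorem Kn_le (h2 : S_two) (a b d : ℝ) (ω : Cfg) : Kn a b d ω ≤ (BL 0 b d ω).ncard := by
  unfold Kn
  refine Set.ncard_le_ncard ?_ (BL_fin h2 0 b d ω)
  rintro ℓ ⟨h1, ⟨v, hv, -, hb⟩, h3⟩
  exact ⟨h1, ⟨v, hv, by simpa using hb⟩, h3⟩

theorem Kn_meas (h2 : S_two) (hl : S_loc) (a b d : ℝ) : Measurable (Kn a b d) := by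
  classical
  obtain ⟨B, hB⟩ := box_fin 0 ⌊b⌋
  have e : Kn a b d = fun ω => Set.ncard {ℓ | ℓ ∈ LV B ω ∧ (Vis a b ℓ ∧ ¬ Small d ℓ)} := by
    ext ω
    unfold Kn
    congr 1
    ext ℓ
    simp only [Set.mem_ofPred_eq, LV]
    constructor
    · rintro ⟨h1, h3, h4⟩
      obtain ⟨v, hv, hv1, hv2⟩ := h3
      exact ⟨⟨h1, v, hv, (hB v).2 (by rw [Int.le_floor]; simpa using hv2)⟩, ⟨v, hv, hv1, hv2⟩, h4⟩
    · rintro ⟨⟨h1, -⟩, h3, h4⟩
      exact ⟨h1, h3, h4⟩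
  rw [e]
  exact meas_count h2 hl B _

theorem large_main (hX : S_crossL) (hcon : S_con) (h2 : S_two) (hl : S_loc) : S_large := by
  intro κ s hκ
  obtain ⟨C, hC⟩ := large_gen hX hcon h2 (κ / 3) s (by positivity)
  obtain ⟨C', hC'⟩ := large_gen hX hcon h2 (κ / 3) |s| (by positivity)
  refine ⟨max C' 0, 2, fun ρ hρ => ?_⟩
  have hle : ∀ ω, s * (Kn (ρ - 2) (2 * ρ + 2) (κ * ρ) ω : ℝ) ≤
      |s| * ((BL 0 (3 * ρ) (κ / 3 * (3 * ρ)) ω).ncard : ℝ) := by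
    intro ω
    have h1 : Kn (ρ - 2) (2 * ρ + 2) (κ * ρ) ω ≤ (BL 0 (3 * ρ) (κ / 3 * (3 * ρ)) ω).ncard := by
      refine (Kn_le h2 _ _ _ ω).trans (Set.ncard_le_ncard ?_ (BL_fin h2 _ _ _ ω))
      rintro ℓ ⟨h3, ⟨v, hv, hv'⟩, h4⟩
      refine ⟨h3, ⟨v, hv, by linarith⟩, ?_⟩
      have : κ / 3 * (3 * ρ) = κ * ρ := by ring
      rw [this]; exact h4
    calc s * (Kn (ρ - 2) (2 * ρ + 2) (κ * ρ) ω : ℝ)
        ≤ |s| * (Kn (ρ - 2) (2 * ρ + 2) (κ * ρ) ω : ℝ) :=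
          mul_le_mul_of_nonneg_right (le_abs_self s) (by positivity)
      _ ≤ _ := mul_le_mul_of_nonneg_left (by exact_mod_cast h1) (abs_nonneg s)
  have hEm : Em μ (fun ω => s * (Kn (ρ - 2) (2 * ρ + 2) (κ * ρ) ω : ℝ)) ≤
      ENNReal.ofReal (max C' 0) :=
    (Em_mono hle).trans ((hC' 0 (3 * ρ) (by linarith)).trans
      (ENNReal.ofReal_le_ofReal (le_max_left _ _)))
  have hm : Measurable (fun ω => s * (Kn (ρ - 2) (2 * ρ + 2) (κ * ρ) ω : ℝ)) := by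
    have := Kn_meas h2 hl (ρ - 2) (2 * ρ + 2) (κ * ρ)
    exact ((measurable_from_top.comp this : Measurable fun ω =>
      ((Kn (ρ - 2) (2 * ρ + 2) (κ * ρ) ω : ℕ) : ℝ))).const_mul s
  have hint := integrable_exp_of_Em hm hEm
  refine ⟨hint, ?_⟩
  rw [Em_eq hint] at hEm
  rwa [ENNReal.ofReal_le_ofReal_iff (le_max_right _ _)] at hEm

end Vale.Agent.P167.H45
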