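import Vale.Agent.P167.H45.Cnt

/-!
# P167, block E: a long loop crosses many small annuli
-/

namespace Vale.Agent.P167.H45

open Finset Filter Topology MeasureTheory ProbabilityTheory
open Vale.Agent.P167.H562

/-- `ℓ` crosses the annulus around `x` with radii `r` and `k * r`. -/
def Crs (k r : ℤ) (x : ℤ × ℤ) (ℓ : Finset Ed) : Prop :=
  (∃ v ∈ vs ℓ, nm (v - x) ≤ r) ∧ ∃ v ∈ vs ℓ, k * r ≤ nm (v - x)

/-- The point of the grid of mesh `r` with index `z`. -/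
def gp (r : ℤ) (z : ℤ × ℤ) : ℤ × ℤ := (r * z.1, r * z.2)

/-- Local form of the bound on the number of crossing loops. -/
def S_crossL : Prop := ∃ (k : ℤ) (l C : ℝ), 2 ≤ k ∧ 0 < l ∧ ∀ (x : ℤ × ℤ) (r : ℤ), 1 ≤ r →
  ∃ Z : Cfg → ℕ,
   (∀ ω ω' : Cfg, (∀ v, nm (v - x) ≤ k * r → ω v = ω' v) → Z ω = Z ω') ∧
   (∀ ω, Set.ncard {ℓ | IsLoop ω ℓ ∧ (∃ v ∈ vs ℓ, nm (v - x) ≤ r) ∧
     ∃ v ∈ vs ℓ, k * r ≤ nm (v - x)} ≤ Z ω) ∧
   ∫⁻ ω, ENNReal.ofReal (Real.exp (l * (Z ω : ℝ))) ∂μ ≤ ENNReal.ofReal C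

theorem near_gp {r : ℤ} (hr : 1 ≤ r) (u : ℤ × ℤ) : nm (u - gp r (u.1 / r, u.2 / r)) ≤ r := by
  rw [nm_le]
  have h1 := Int.emod_add_mul_ediv u.1 r
  have h2 := Int.emod_add_mul_ediv u.2 r
  have h3 := Int.emod_nonneg u.1 (by omega : r ≠ 0)
  have h4 := Int.emod_nonneg u.2 (by omega : r ≠ 0)
  have h5 := Int.emod_lt_of_pos u.1 (by omega : 0 < r)
  have h6 := Int.emod_lt_of_pos u.2 (by omega : 0 < r)
  simp only [gp, Prod.fst_sub, Prod.snd_sub]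
  rw [abs_le, abs_le]
  refine ⟨⟨?_, ?_⟩, ?_, ?_⟩ <;> linarith

/-- A loop with visited squares `p`, `q` at distance more than `(k + 3) * r * n` crosses at least
`n` of the annuli around the points of the grid of mesh `r`, near `p`. -/
theorem cross_many (hcon : S_con) {ω : Cfg} {ℓ : Finset Ed} (hℓ : IsLoop ω ℓ) {p q : ℤ × ℤ}
    (hp : p ∈ vs ℓ) (hq : q ∈ vs ℓ) {k r : ℤ} (hk : 0 ≤ k) (hr : 1 ≤ r) {n : ℕ}
    (hd : (k + 3) * r * n < nm (q - p)) :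
    ∃ T : Finset (ℤ × ℤ), n ≤ T.card ∧ ∀ z ∈ T, Crs k r (gp r z) ℓ ∧
      nm (gp r z - p) ≤ (k + 3) * r * n + r := by
  classical
  have key : ∀ i : ℕ, i ∈ Finset.Icc 1 n → ∃ u ∈ vs ℓ, nm (u - p) = (k + 3) * r * i := by
    intro i hi
    rw [Finset.mem_Icc] at hi
    have h0 : 0 ≤ (k + 3) * r := by positivity
    have hle : (k + 3) * r * i ≤ (k + 3) * r * n :=
      mul_le_mul_of_nonneg_left (by exact_mod_cast hi.2) h0
    obtain ⟨u, hu, v, hv, h1, h2, h3⟩ := hcon ω ℓ hℓ {v | nm (v - p) ≤ (k + 3) * r * i}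
      ⟨p, hp, by
        show nm (p - p) ≤ _
        have : nm (p - p) = 0 := by simp [nm]
        rw [this]; positivity⟩
      ⟨q, hq, by
        show ¬ nm (q - p) ≤ _
        linarith⟩
    refine ⟨u, hu, le_antisymm h1 ?_⟩
    have h4 : nm (v - p) ≤ nm (v - u) + nm (u - p) := nm_sub_le v u p
    have h5 : nm (v - u) ≤ 1 := by
      rw [nm_sub_comm, nm_le, ← h3]
      simp only [Prod.fst_sub, Prod.snd_sub]
      exact ⟨le_add_of_nonneg_right (abs_nonneg _), le_add_of_nonneg_left (abs_nonneg _)⟩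
    have h6 : ¬ nm (v - p) ≤ (k + 3) * r * i := h2
    omega
  choose! u hu hui using key
  have hnear := fun i : ℕ => near_gp hr (u i)
  have hinj : Set.InjOn (fun i : ℕ => ((u i).1 / r, (u i).2 / r)) (Finset.Icc 1 n : Finset ℕ) := by
    intro i hi j hj hij
    have hij' : ((u i).1 / r, (u i).2 / r) = ((u j).1 / r, (u j).2 / r) := hij
    have hi' := hui i hi
    have hj' := hui j hj
    have a1 := hnear i
    have a2 := hnear j
    rw [← hij'] at a2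
    set x := gp r ((u i).1 / r, (u i).2 / r) with hx
    have b1 : nm (u i - u j) ≤ nm (u i - x) + nm (x - u j) := nm_sub_le _ _ _
    rw [nm_sub_comm x] at b1
    have b2 : nm (u i - p) ≤ nm (u i - u j) + nm (u j - p) := nm_sub_le _ _ _
    have b3 : nm (u j - p) ≤ nm (u j - u i) + nm (u i - p) := nm_sub_le _ _ _
    rw [nm_sub_comm (u j) (u i)] at b3
    rw [hi', hj'] at b2 b3
    by_contra hne
    rcases lt_or_gt_of_ne hne with h | h
    · have h' : ((i : ℤ) + 1) ≤ j := by exact_mod_cast h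
      nlinarith [mul_nonneg (by positivity : 0 ≤ (k + 3) * r) (sub_nonneg.2 h'), mul_nonneg hk (by omega : 0 ≤ r)]
    · have h' : ((j : ℤ) + 1) ≤ i := by exact_mod_cast h
      nlinarith [mul_nonneg (by positivity : 0 ≤ (k + 3) * r) (sub_nonneg.2 h'), mul_nonneg hk (by omega : 0 ≤ r)]
  refine ⟨(Finset.Icc 1 n).image (fun i : ℕ => ((u i).1 / r, (u i).2 / r)), ?_, ?_⟩
  · rw [Finset.card_image_of_injOn hinj]; simp
  · intro z hz
    rw [Finset.mem_image] at hz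
    obtain ⟨i, hi, rfl⟩ := hz
    have a1 := hnear i
    have a2 := hui i hi
    have hi1 : (1 : ℤ) ≤ i := by exact_mod_cast (Finset.mem_Icc.1 hi).1
    have hi2 : (i : ℤ) ≤ n := by exact_mod_cast (Finset.mem_Icc.1 hi).2
    set x := gp r ((u i).1 / r, (u i).2 / r) with hx
    have h0 : 0 ≤ (k + 3) * r := by positivity
    have m1 := mul_le_mul_of_nonneg_left hi1 h0
    have m2 := mul_le_mul_of_nonneg_left hi2 h0
    refine ⟨⟨⟨u i, hu i hi, a1⟩, p, hp, ?_⟩, ?_⟩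
    · have b1 : nm (u i - p) ≤ nm (u i - x) + nm (x - p) := nm_sub_le _ _ _
      rw [nm_sub_comm x] at b1
      nlinarith
    · have b1 : nm (x - p) ≤ nm (x - u i) + nm (u i - p) := nm_sub_le _ _ _
      rw [nm_sub_comm x (u i)] at b1
      linarith

/-! ### the exponential moment of the sum of the local majorants -/

/-- Double counting. -/
theorem count_le (h2 : S_two) {ι : Type*} {k : ℤ} (I : Finset ι) (x : ι → ℤ × ℤ) (r : ι → ℤ)
    (Z : ι → ℕ) {ω : Cfg}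
    (hZ : ∀ i ∈ I, Set.ncard {ℓ | IsLoop ω ℓ ∧ Crs k (r i) (x i) ℓ} ≤ Z i)
    {𝓢 : Set (Finset Ed)} (h𝓢 : 𝓢.Finite) (hl : ∀ ℓ ∈ 𝓢, IsLoop ω ℓ) {n : ℕ}
    (hn : ∀ ℓ ∈ 𝓢, ∃ T : Finset ι, T ⊆ I ∧ n ≤ T.card ∧ ∀ i ∈ T, Crs k (r i) (x i) ℓ) :
    n * 𝓢.ncard ≤ ∑ i ∈ I, Z i := by
  classical
  rw [Set.ncard_eq_toFinset_card 𝓢 h𝓢]
  set F := h𝓢.toFinset with hF
  have hFm : ∀ ℓ, ℓ ∈ F ↔ ℓ ∈ 𝓢 := fun ℓ => by rw [hF, Set.Finite.mem_toFinset]
  calc n * F.card = ∑ _ℓ ∈ F, n := by rw [Finset.sum_const, smul_eq_mul, mul_comm]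
    _ ≤ ∑ ℓ ∈ F, (I.filter (fun i => Crs k (r i) (x i) ℓ)).card := by
        refine Finset.sum_le_sum fun ℓ hℓ => ?_
        obtain ⟨T, hT, hc, h⟩ := hn ℓ ((hFm ℓ).1 hℓ)
        exact hc.trans (Finset.card_le_card fun i hi => Finset.mem_filter.2 ⟨hT hi, h i hi⟩)
    _ = ∑ i ∈ I, (F.filter (fun ℓ => Crs k (r i) (x i) ℓ)).card := by
        simp only [Finset.card_filter]
        exact Finset.sum_comm
    _ ≤ ∑ i ∈ I, Z i := by
        refine Finset.sum_le_sum fun i hi => ?_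
        refine le_trans ?_ (hZ i hi)
        rw [← Set.ncard_coe_finset]
        refine Set.ncard_le_ncard (fun ℓ hℓ => ?_) ?_
        · have h3 := Finset.mem_filter.1 (Finset.mem_coe.1 hℓ)
          exact ⟨hl ℓ ((hFm ℓ).1 h3.1), h3.2⟩
        · refine (LV_fin h2 ((Finset.Icc ((x i).1 - r i) ((x i).1 + r i)) ×ˢ
            (Finset.Icc ((x i).2 - r i) ((x i).2 + r i))) ω).subset ?_
          rintro ℓ ⟨h3, ⟨v, hv, h4⟩, -⟩
          refine ⟨h3, v, hv, ?_⟩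
          rw [nm_le] at h4
          simp only [Prod.fst_sub, Prod.snd_sub, abs_le] at h4
          rw [Finset.mem_product, Finset.mem_Icc, Finset.mem_Icc]
          omega

theorem box_fin (x : ℤ × ℤ) (r : ℤ) : ∃ F : Finset (ℤ × ℤ), ∀ v, v ∈ F ↔ nm (v - x) ≤ r := by
  refine ⟨(Finset.Icc (x.1 - r) (x.1 + r)) ×ˢ (Finset.Icc (x.2 - r) (x.2 + r)), fun v => ?_⟩
  rw [nm_le, Finset.mem_product, Finset.mem_Icc, Finset.mem_Icc]
  simp only [Prod.fst_sub, Prod.snd_sub, abs_le]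
  omega

theorem gp_disj {k r : ℤ} (hr : 1 ≤ r) {m : ℕ} (hm : 2 * k < m) {z z' : ℤ × ℤ} (hz : z ≠ z')
    (h1 : (z.1 : ZMod m) = z'.1) (h2 : (z.2 : ZMod m) = z'.2) :
    Disjoint {v | nm (v - gp r z) ≤ k * r} {v | nm (v - gp r z') ≤ k * r} := by
  rw [Set.disjoint_left]
  intro v h3 h4
  have h3' : nm (v - gp r z) ≤ k * r := h3
  have h4' : nm (v - gp r z') ≤ k * r := h4
  have h5 : nm (gp r z - gp r z') ≤ nm (gp r z - v) + nm (v - gp r z') := nm_sub_le _ _ _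
  rw [nm_sub_comm (gp r z) v] at h5
  have h6 : nm (gp r z - gp r z') ≤ r * (2 * k) := by linarith
  rw [nm_le] at h6
  simp only [gp, Prod.fst_sub, Prod.snd_sub, ← mul_sub, abs_mul, abs_of_pos (by omega : 0 < r)] at h6
  have h7 : |z.1 - z'.1| ≤ 2 * k := le_of_mul_le_mul_left h6.1 (by omega)
  have h8 : |z.2 - z'.2| ≤ 2 * k := le_of_mul_le_mul_left h6.2 (by omega)
  have h9 : ∀ a b : ℤ, (a : ZMod m) = b → |a - b| ≤ 2 * k → a = b := by
    intro a b hab h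
    rw [ZMod.intCast_eq_intCast_iff_dvd_sub] at hab
    have := Int.eq_zero_of_abs_lt_dvd hab (by rw [abs_sub_comm]; omega)
    omega
  exact hz (Prod.ext (h9 _ _ h1 h7) (h9 _ _ h2 h8))

theorem Em_cross {k : ℤ} (hk : 2 ≤ k) {l C : ℝ} (hl : 0 < l) {Z : ℤ × ℤ → ℤ → Cfg → ℕ}
    (hloc : ∀ x r, 1 ≤ r → ∀ ω ω' : Cfg, (∀ v, nm (v - x) ≤ k * r → ω v = ω' v) →
      Z x r ω = Z x r ω')
    (hE : ∀ x r, 1 ≤ r → ∫⁻ ω, ENNReal.ofReal (Real.exp (l * (Z x r ω : ℝ))) ∂μ ≤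
      ENNReal.ofReal C) :
    ∃ θ b : ℝ, 0 < θ ∧ 0 ≤ b ∧ ∀ (r : ℕ → ℤ), (∀ j, 1 ≤ r j) → ∀ I : Finset (ℕ × (ℤ × ℤ)),
      (∀ i ∈ I, ∀ i' ∈ I, i.1 ≠ i'.1 → (i.1 : ZMod 3) = i'.1 →
        Disjoint {v | nm (v - gp (r i.1) i.2) ≤ k * r i.1}
          {v | nm (v - gp (r i'.1) i'.2) ≤ k * r i'.1}) →
      Em μ (fun ω => θ * ∑ i ∈ I, (Z (gp (r i.1) i.2) (r i.1) ω : ℝ)) ≤
        ENNReal.ofReal (Real.exp (I.card * b)) := by
  classical
  set m : ℕ := (2 * k + 1).toNat with hm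
  have hm' : (m : ℤ) = 2 * k + 1 := by omega
  have : NeZero m := ⟨by omega⟩
  set c : ℕ := Fintype.card (ZMod 3 × ZMod m × ZMod m) with hc
  have hc0 : (0 : ℝ) < c := by exact_mod_cast Fintype.card_pos
  refine ⟨l / c, Real.log (max C 1), by positivity, Real.log_nonneg (le_max_right _ _),
    fun r hr I hI => ?_⟩
  have e : (fun ω => l / c * ∑ i ∈ I, (Z (gp (r i.1) i.2) (r i.1) ω : ℝ)) =
      fun ω => ∑ i ∈ I, l / c * (Z (gp (r i.1) i.2) (r i.1) ω : ℝ) := by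
    ext ω; rw [Finset.mul_sum]
  rw [e]
  have hloc' : ∀ i : ℕ × (ℤ × ℤ), LocFun {v | nm (v - gp (r i.1) i.2) ≤ k * r i.1}
      (fun ω => l / c * (Z (gp (r i.1) i.2) (r i.1) ω : ℝ)) := by
    intro i ω ω' hw
    have := hloc (gp (r i.1) i.2) (r i.1) (hr _) ω ω' hw
    simp only [this]
  refine Em_col I (fun i => (((i.1 : ZMod 3), ((i.2.1 : ZMod m), (i.2.2 : ZMod m))) :
    ZMod 3 × ZMod m × ZMod m)) (fun i => {v | nm (v - gp (r i.1) i.2) ≤ k * r i.1}) ?_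
    (fun i _ => ?_) (fun i _ => hloc' i) (Real.log_nonneg (le_max_right _ _)) (fun i _ => ?_)
  · intro i hi j hj hij hc
    have h1 := congrArg Prod.fst hc
    have h2 := congrArg (fun p => p.2.1) hc
    have h3 := congrArg (fun p => p.2.2) hc
    dsimp only at h1 h2 h3
    by_cases h : i.1 = j.1
    · rw [← h]
      refine gp_disj (hr _) (by omega) (fun h' => hij (Prod.ext h h')) h2 h3
    · exact hI i hi j hj h h1
  · obtain ⟨F, hF⟩ := box_fin (gp (r i.1) i.2) (k * r i.1)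
    exact meas_locfun F fun ω ω' hw => hloc' i ω ω' fun v hv => hw v ((hF v).2 hv)
  · rw [Real.exp_log (by positivity)]
    refine le_trans (le_of_eq ?_) ((hE (gp (r i.1) i.2) (r i.1) (hr _)).trans
      (ENNReal.ofReal_le_ofReal (le_max_left _ _)))
    unfold Em
    refine lintegral_congr fun ω => ?_
    rw [← hc]
    congr 2
    field_simp

end Vale.Agent.P167.H45
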