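import Vale.Agent.P167.H45.Large

/-!
# P167: a priori bound for the exponential moments of the number of loops around the origin
-/

namespace Vale.Agent.P167.H45

open Finset Filter Topology MeasureTheory ProbabilityTheory
open Vale.Agent.P167.H562

/-- A priori bound. -/
def S_mom : Prop := ∀ u : ℝ, ∃ C a0 : ℝ, ∀ a b : ℝ, a0 ≤ a → 2 * a ≤ b →
  Integrable (fun ω => Real.exp (u * Nn a b ω)) μ ∧
  ∫ ω, Real.exp (u * Nn a b ω) ∂μ ≤ (b / a) ^ C

/-- A loop around the origin is long. -/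
theorem far_point (ho : S_out) {ω : Cfg} {ℓ : Finset Ed} (hℓ : IsLoop ω ℓ) (h0 : W ℓ 0 ≠ 0)
    {p : ℤ × ℤ} (hp : p ∈ vs ℓ) : ∃ q ∈ vs ℓ, nm p ≤ nm (q - p) := by
  by_contra hcon
  push Not at hcon
  have hb : ∀ q ∈ vs ℓ, |q.1 - p.1| < nm p ∧ |q.2 - p.2| < nm p := by
    intro q hq
    have h1 := hcon q hq
    have h2 : |q.1 - p.1| ≤ nm (q - p) := le_max_left _ _
    have h3 : |q.2 - p.2| ≤ nm (q - p) := le_max_right _ _
    exact ⟨h2.trans_lt h1, h3.trans_lt h1⟩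
  have hp1 : |p.1| ≤ nm p := le_max_left _ _
  have hp2 : |p.2| ≤ nm p := le_max_right _ _
  rcases max_choice |p.1| |p.2| with h | h
  · have hR : nm p = |p.1| := h
    rcases le_total 0 p.1 with h1 | h1
    · have hR' : nm p = p.1 := by rw [hR, abs_of_nonneg h1]
      have := ho ω ℓ hℓ 1 (2 * nm p) (-(2 * nm p)) (2 * nm p) (fun q hq => by
        obtain ⟨g1, g2⟩ := hb q hq
        rw [abs_lt] at g1 g2
        rw [abs_le] at hp1 hp2
        omega) 0 h0
      simp at this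
    · have hR' : nm p = -p.1 := by rw [hR, abs_of_nonpos h1]
      have := ho ω ℓ hℓ (-(2 * nm p)) (-1) (-(2 * nm p)) (2 * nm p) (fun q hq => by
        obtain ⟨g1, g2⟩ := hb q hq
        rw [abs_lt] at g1 g2
        rw [abs_le] at hp1 hp2
        omega) 0 h0
      simp at this
  · have hR : nm p = |p.2| := h
    rcases le_total 0 p.2 with h1 | h1
    · have hR' : nm p = p.2 := by rw [hR, abs_of_nonneg h1]
      have := ho ω ℓ hℓ (-(2 * nm p)) (2 * nm p) 1 (2 * nm p) (fun q hq => by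
        obtain ⟨g1, g2⟩ := hb q hq
        rw [abs_lt] at g1 g2
        rw [abs_le] at hp1 hp2
        omega) 0 h0
      simp at this
    · have hR' : nm p = -p.2 := by rw [hR, abs_of_nonpos h1]
      have := ho ω ℓ hℓ (-(2 * nm p)) (2 * nm p) (-(2 * nm p)) (-1) (fun q hq => by
        obtain ⟨g1, g2⟩ := hb q hq
        rw [abs_lt] at g1 g2
        rw [abs_le] at hp1 hp2
        omega) 0 h0
      simp at this

/-- The loops counted by `Nn`. -/
def NS (a b : ℝ) (ω : Cfg) : Set (Finset Ed) :=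
  {ℓ | IsLoop ω ℓ ∧ (∀ v ∈ vs ℓ, a < (nm v : ℝ) ∧ (nm v : ℝ) < b) ∧ W ℓ 0 ≠ 0}

theorem NS_fin (h2 : S_two) (a b : ℝ) (ω : Cfg) : (NS a b ω).Finite := by
  obtain ⟨B, hB⟩ := box_fin 0 ⌊b⌋
  refine (LV_fin h2 B ω).subset ?_
  rintro ℓ ⟨h1, h3, -⟩
  obtain ⟨e, he⟩ := IsLoop.nonempty h1
  have hv : hdv e ∈ vs ℓ := Finset.mem_image_of_mem _ he
  exact ⟨h1, hdv e, hv, (hB _).2 (by rw [Int.le_floor]; simpa using (h3 _ hv).2.le)⟩

theorem NS_meas (h2 : S_two) (hl : S_loc) (a b : ℝ) : Measurable (fun ω => (NS a b ω).ncard) := by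
  classical
  obtain ⟨B, hB⟩ := box_fin 0 ⌊b⌋
  have e : (fun ω => (NS a b ω).ncard) = fun ω => Set.ncard {ℓ | ℓ ∈ LV B ω ∧
      ((∀ v ∈ vs ℓ, a < (nm v : ℝ) ∧ (nm v : ℝ) < b) ∧ W ℓ 0 ≠ 0)} := by
    ext ω
    congr 1
    ext ℓ
    simp only [NS, Set.mem_ofPred_eq, LV]
    constructor
    · rintro ⟨h1, h3, h4⟩
      obtain ⟨e, he⟩ := IsLoop.nonempty h1
      have hv : hdv e ∈ vs ℓ := Finset.mem_image_of_mem _ he
      exact ⟨⟨h1, hdv e, hv, (hB _).2 (by rw [Int.le_floor]; simpa using (h3 _ hv).2.le)⟩, h3, h4⟩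
    · rintro ⟨⟨h1, -⟩, h3, h4⟩
      exact ⟨h1, h3, h4⟩
  rw [e]
  exact meas_count h2 hl B _

/-- The dyadic scales between `a` and `b`. -/
theorem scales {M0 a b : ℝ} (hM : 0 < M0) (ha : M0 ≤ a) (hab : 2 * a ≤ b) : ∃ j0 j1 : ℕ,
    (∀ (j : ℕ) (R : ℝ), a < R → R < b → M0 * 2 ^ j ≤ R → R < M0 * 2 ^ (j + 1) →
      j ∈ Finset.Ico j0 j1) ∧ ((Finset.Ico j0 j1).card : ℝ) * Real.log 2 ≤ 5 * Real.log (b / a) := by
  have ha0 : 0 < a := hM.trans_le ha
  have hb0 : 0 < b := by linarith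
  have haM : 1 ≤ a / M0 := by rw [le_div_iff₀ hM]; linarith
  have hbM : 2 ≤ b / M0 := by rw [le_div_iff₀ hM]; linarith
  set A : ℕ := ⌊a / M0⌋₊ with hA
  set B : ℕ := ⌈b / M0⌉₊ with hB
  have hA1 : 1 ≤ A := Nat.le_floor (by simpa using haM)
  have hA2 : (A : ℝ) ≤ a / M0 := Nat.floor_le (by positivity)
  have hA3 : a / M0 < A + 1 := Nat.lt_floor_add_one _
  have hB1 : b / M0 ≤ B := Nat.le_ceil _
  have hB2 : (B : ℝ) < b / M0 + 1 := Nat.ceil_lt_add_one (by positivity)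
  have hB3 : 1 < B := by
    have : (1 : ℝ) < B := by linarith
    exact_mod_cast this
  have g1 : 2 ^ (Nat.log 2 A) ≤ A := Nat.pow_log_le_self 2 (by omega)
  have g2 : A < 2 ^ (Nat.log 2 A + 1) := Nat.lt_pow_succ_log_self (by norm_num) A
  have g3 : B ≤ 2 ^ (Nat.clog 2 B) := Nat.le_pow_clog (by norm_num) B
  have g4 : 2 ^ (Nat.clog 2 B - 1) < B := Nat.pow_pred_clog_lt_self (by norm_num) hB3
  have g1' : (2 : ℝ) ^ (Nat.log 2 A) ≤ a / M0 := le_trans (by exact_mod_cast g1) hA2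
  have g3' : b / M0 ≤ (2 : ℝ) ^ (Nat.clog 2 B) := hB1.trans (by exact_mod_cast g3)
  refine ⟨Nat.log 2 A, Nat.clog 2 B, ?_, ?_⟩
  · intro j R h1 h2 h3 h4
    rw [Finset.mem_Ico]
    constructor
    · have h5 : M0 * 2 ^ (Nat.log 2 A) < M0 * 2 ^ (j + 1) := by
        have : M0 * 2 ^ (Nat.log 2 A) ≤ a := by
          rw [le_div_iff₀ hM] at g1'; linarith
        linarith
      have h6 : (2 : ℝ) ^ (Nat.log 2 A) < 2 ^ (j + 1) := lt_of_mul_lt_mul_left h5 hM.le
      have := (pow_lt_pow_iff_right₀ (by norm_num : (1 : ℝ) < 2)).1 h6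
      omega
    · have h5 : M0 * 2 ^ j < M0 * 2 ^ (Nat.clog 2 B) := by
        have : b ≤ M0 * 2 ^ (Nat.clog 2 B) := by
          rw [div_le_iff₀ hM] at g3'; linarith
        linarith
      have h6 : (2 : ℝ) ^ j < 2 ^ (Nat.clog 2 B) := lt_of_mul_lt_mul_left h5 hM.le
      exact (pow_lt_pow_iff_right₀ (by norm_num : (1 : ℝ) < 2)).1 h6
  · have h1 : 1 ≤ Nat.clog 2 B := Nat.clog_pos (by norm_num) (by omega)
    have h5 : (2 : ℝ) ^ (Nat.clog 2 B) ≤ 4 * (b / M0) := by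
      have h6 : (2 : ℝ) ^ (Nat.clog 2 B) = 2 * 2 ^ (Nat.clog 2 B - 1) := by
        rw [← pow_succ']; congr 1; omega
      have h7 : (2 : ℝ) ^ (Nat.clog 2 B - 1) < B := by exact_mod_cast g4
      rw [h6]; linarith
    have h6 : a / M0 ≤ 4 * (2 : ℝ) ^ (Nat.log 2 A) := by
      have h7 : (A : ℝ) < 2 ^ (Nat.log 2 A + 1) := by exact_mod_cast g2
      have h8 : (1 : ℝ) ≤ A := by exact_mod_cast hA1
      rw [pow_succ] at h7
      linarith
    have h7 : (2 : ℝ) ^ ((Finset.Ico (Nat.log 2 A) (Nat.clog 2 B)).card) ≤ (b / a) ^ 5 := by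
      rw [Nat.card_Ico]
      rcases le_total (Nat.log 2 A) (Nat.clog 2 B) with h | h
      · have e1 : (2 : ℝ) ^ (Nat.clog 2 B) =
            2 ^ (Nat.clog 2 B - Nat.log 2 A) * 2 ^ (Nat.log 2 A) := by
          rw [← pow_add]; congr 1; omega
        have hba : 2 ≤ b / a := by rw [le_div_iff₀ ha0]; linarith
        have h8 : (2 : ℝ) ^ (Nat.clog 2 B - Nat.log 2 A) * (a / M0) ≤ 16 * (b / M0) := by
          have h9 : (2 : ℝ) ^ (Nat.clog 2 B - Nat.log 2 A) * (a / M0) ≤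
              (2 : ℝ) ^ (Nat.clog 2 B - Nat.log 2 A) * (4 * (2 : ℝ) ^ (Nat.log 2 A)) :=
            mul_le_mul_of_nonneg_left h6 (by positivity)
          nlinarith
        have h9 : (2 : ℝ) ^ (Nat.clog 2 B - Nat.log 2 A) ≤ 16 * (b / a) := by
          have e2 : b / M0 = (b / a) * (a / M0) := by field_simp
          rw [e2, ← mul_assoc] at h8
          exact le_of_mul_le_mul_right h8 (by positivity)
        have h10 : (16 : ℝ) ≤ (b / a) ^ 4 := by
          calc (16 : ℝ) = 2 ^ 4 := by norm_num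
            _ ≤ _ := pow_le_pow_left₀ (by norm_num) hba 4
        calc (2 : ℝ) ^ (Nat.clog 2 B - Nat.log 2 A) ≤ 16 * (b / a) := h9
          _ ≤ (b / a) ^ 4 * (b / a) := mul_le_mul_of_nonneg_right h10 (by positivity)
          _ = _ := by ring
      · rw [Nat.sub_eq_zero_of_le h, pow_zero]
        have hba : 1 ≤ b / a := by rw [le_div_iff₀ ha0]; linarith
        exact one_le_pow₀ hba
    have h8 := Real.log_le_log (by positivity) h7
    rw [Real.log_pow, Real.log_pow] at h8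
    exact_mod_cast h8

theorem mom_main (hX : S_crossL) (hcon : S_con) (h2 : S_two) (hl : S_loc) (ho : S_out) :
    S_mom := by
  classical
  intro u
  obtain ⟨k, l, C0, hk, hll, h⟩ := hX
  choose! Z hZ1 hZ2 hZ3 using h
  obtain ⟨θ, b0, hθ, hb0, hEm⟩ := Em_cross hk hll hZ1 hZ3
  obtain ⟨n, hn⟩ := exists_nat_ge (|u| / θ)
  have hsn : |u| ≤ θ * (n + 1 : ℕ) := by
    rw [div_le_iff₀ hθ] at hn
    push_cast
    nlinarith
  set N : ℕ := n + 1 with hN
  have hN1 : 1 ≤ N := by omega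
  set M0 : ℤ := 4 * (k + 4) * N with hM0
  have hN1' : (1 : ℤ) ≤ N := by exact_mod_cast hN1
  have hM0pos : 0 < M0 := by positivity
  set D : ℝ := ((6 * M0 + 2 : ℤ) : ℝ) ^ 2 with hD
  have hD0 : 0 ≤ D := by positivity
  refine ⟨5 * (D * b0) / Real.log 2, M0, fun a b ha hab => ?_⟩
  have hM0R : (0 : ℝ) < M0 := by exact_mod_cast hM0pos
  obtain ⟨j0, j1, hj, hjc⟩ := scales hM0R ha hab
  have hgrid := fun j : ℕ => grid_fin 0 (r := 2 ^ j) (P := 3 * M0 * 2 ^ j)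
    (one_le_pow₀ (by norm_num)) (by positivity)
  choose J hJ1 hJ2 using hgrid
  have hJ2' : ∀ j, ((J j).card : ℝ) ≤ D := by
    intro j
    have h3 := hJ2 j
    have h4 : (2 * (3 * M0 * 2 ^ j)) / 2 ^ j = 6 * M0 := by
      rw [show (2 * (3 * M0 * 2 ^ j) : ℤ) = 6 * M0 * 2 ^ j by ring]
      exact Int.mul_ediv_cancel _ (by positivity)
    rw [h4] at h3
    rw [hD]
    exact_mod_cast h3
  let I : Finset (ℕ × (ℤ × ℤ)) := (Finset.Ico j0 j1).biUnion fun j =>
    ((J j).filter (fun z => 3 * M0 * 2 ^ j ≤ 4 * nm (gp (2 ^ j) z) ∧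
      4 * nm (gp (2 ^ j) z) ≤ 9 * M0 * 2 ^ j)).image (fun z => (j, z))
  have hImem : ∀ i : ℕ × (ℤ × ℤ), i ∈ I ↔ i.1 ∈ Finset.Ico j0 j1 ∧ i.2 ∈ J i.1 ∧
      3 * M0 * 2 ^ i.1 ≤ 4 * nm (gp (2 ^ i.1) i.2) ∧
      4 * nm (gp (2 ^ i.1) i.2) ≤ 9 * M0 * 2 ^ i.1 := by
    rintro ⟨j, z⟩
    simp only [I, Finset.mem_biUnion, Finset.mem_image, Finset.mem_filter, Prod.mk.injEq]
    constructor
    · rintro ⟨j', h3, z', ⟨h4, h5⟩, rfl, rfl⟩
      exact ⟨h3, h4, h5⟩
    · rintro ⟨h3, h4, h5⟩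
      exact ⟨j, h3, z, ⟨h4, h5⟩, rfl, rfl⟩
  have hIcard : (I.card : ℝ) ≤ ((Finset.Ico j0 j1).card : ℝ) * D := by
    have h3 : I.card ≤ ∑ j ∈ Finset.Ico j0 j1, (J j).card := by
      refine Finset.card_biUnion_le.trans (Finset.sum_le_sum fun j _ => ?_)
      exact Finset.card_image_le.trans (Finset.card_filter_le _ _)
    calc (I.card : ℝ) ≤ ∑ j ∈ Finset.Ico j0 j1, ((J j).card : ℝ) := by exact_mod_cast h3
      _ ≤ ∑ _j ∈ Finset.Ico j0 j1, D := Finset.sum_le_sum fun j _ => hJ2' j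
      _ = _ := by rw [Finset.sum_const, nsmul_eq_mul]
  have hbox : ∀ i ∈ I, ∀ v, nm (v - gp (2 ^ i.1) i.2) ≤ k * 2 ^ i.1 →
      M0 * 2 ^ i.1 ≤ 2 * nm v ∧ 2 * nm v ≤ 5 * M0 * 2 ^ i.1 := by
    intro i hi v hv
    obtain ⟨-, -, h3, h4⟩ := (hImem i).1 hi
    have h5 : nm v ≤ nm (v - gp (2 ^ i.1) i.2) + nm (gp (2 ^ i.1) i.2) := by
      simpa using nm_add_le (v - gp (2 ^ i.1) i.2) (gp (2 ^ i.1) i.2)
    have h6 : nm (gp (2 ^ i.1) i.2) ≤ nm (gp (2 ^ i.1) i.2 - v) + nm v := by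
      simpa using nm_add_le (gp (2 ^ i.1) i.2 - v) v
    rw [nm_sub_comm] at h6
    have h7 : 4 * (k * 2 ^ i.1) ≤ M0 * 2 ^ i.1 := by
      rw [hM0]
      have : (0 : ℤ) < 2 ^ i.1 := by positivity
      nlinarith
    constructor <;> linarith
  have hdisj : ∀ i ∈ I, ∀ i' ∈ I, i.1 < i'.1 → (i.1 : ZMod 3) = i'.1 →
      Disjoint {v | nm (v - gp (2 ^ i.1) i.2) ≤ k * 2 ^ i.1}
        {v | nm (v - gp (2 ^ i'.1) i'.2) ≤ k * 2 ^ i'.1} := by
    intro i hi i' hi' hlt hmod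
    have h3 : i.1 + 3 ≤ i'.1 := by
      rw [ZMod.natCast_eq_natCast_iff] at hmod
      have := (Nat.modEq_iff_dvd' hlt.le).1 hmod
      have := Nat.le_of_dvd (by omega) this
      omega
    rw [Set.disjoint_left]
    intro v h4 h5
    have h6 := (hbox i hi v h4).2
    have h7 := (hbox i' hi' v h5).1
    have h8 : (2 : ℤ) ^ (i.1 + 3) ≤ 2 ^ i'.1 := pow_le_pow_right₀ (by norm_num) h3
    rw [pow_add] at h8
    have h9 : (0 : ℤ) < 2 ^ i.1 := by positivity
    nlinarith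
  have hEmI := hEm (fun j => 2 ^ j) (fun j => one_le_pow₀ (by norm_num)) I
    (fun i hi i' hi' hne hmod => by
      rcases lt_or_gt_of_ne hne with h3 | h3
      · exact hdisj i hi i' hi' h3 hmod
      · exact (hdisj i' hi' i hi h3 hmod.symm).symm)
  have hbd : Real.exp (I.card * b0) ≤ (b / a) ^ (5 * (D * b0) / Real.log 2) := by
    have ha0 : 0 < a := hM0R.trans_le ha
    have hba : 0 < b / a := by
      have : 0 < b := by linarith
      positivity
    rw [Real.rpow_def_of_pos hba]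
    apply Real.exp_le_exp.2
    have hlog2 : 0 < Real.log 2 := Real.log_pos (by norm_num)
    rw [mul_div_assoc', le_div_iff₀ hlog2]
    have h3 : (I.card : ℝ) * b0 ≤ ((Finset.Ico j0 j1).card : ℝ) * (D * b0) := by
      rw [← mul_assoc]; exact mul_le_mul_of_nonneg_right hIcard hb0
    have h4 : ((Finset.Ico j0 j1).card : ℝ) * Real.log 2 * (D * b0) ≤
        5 * Real.log (b / a) * (D * b0) :=
      mul_le_mul_of_nonneg_right hjc (mul_nonneg hD0 hb0)
    nlinarith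
  have hle : ∀ ω, u * (Nn a b ω : ℝ) ≤ θ * ∑ i ∈ I, (Z (gp (2 ^ i.1) i.2) (2 ^ i.1) ω : ℝ) := by
    intro ω
    have hcount := count_le h2 (k := k) I (fun i => gp (2 ^ i.1) i.2) (fun i => 2 ^ i.1)
      (fun i => Z (gp (2 ^ i.1) i.2) (2 ^ i.1) ω) (ω := ω)
      (fun i _ => hZ2 (gp (2 ^ i.1) i.2) (2 ^ i.1) (one_le_pow₀ (by norm_num)) ω)
      (NS_fin h2 a b ω) (fun ℓ hℓ => hℓ.1) (n := N) (fun ℓ hℓ => by
        obtain ⟨hloop, hvs, hW⟩ := hℓ
        obtain ⟨e, he⟩ := IsLoop.nonempty hloop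
        have hp : hdv e ∈ vs ℓ := Finset.mem_image_of_mem _ he
        obtain ⟨q, hq, hpq⟩ := far_point ho hloop hW hp
        set p := hdv e with hpdef
        have hpa := (hvs p hp).1
        have hpb := (hvs p hp).2
        have hR : M0 ≤ nm p := by
          have : (M0 : ℝ) < nm p := ha.trans_lt hpa
          exact_mod_cast this.le
        -- the scale of `p`
        obtain ⟨j, hj2, hj3⟩ : ∃ j : ℕ, M0 * 2 ^ j ≤ nm p ∧ nm p < M0 * 2 ^ (j + 1) := by
          set Q : ℕ := (nm p / M0).toNat with hQ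
          have hQ1 : 1 ≤ nm p / M0 := by
            rw [Int.le_ediv_iff_mul_le hM0pos]; linarith
          have hQ' : (Q : ℤ) = nm p / M0 := Int.toNat_of_nonneg (by omega)
          have hQ0 : Q ≠ 0 := by omega
          have g1 : 2 ^ (Nat.log 2 Q) ≤ Q := Nat.pow_log_le_self 2 hQ0
          have g2 : Q < 2 ^ (Nat.log 2 Q + 1) := Nat.lt_pow_succ_log_self (by norm_num) Q
          have g1' : (2 : ℤ) ^ (Nat.log 2 Q) ≤ nm p / M0 := by rw [← hQ']; exact_mod_cast g1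
          have g2' : nm p / M0 < (2 : ℤ) ^ (Nat.log 2 Q + 1) := by rw [← hQ']; exact_mod_cast g2
          refine ⟨Nat.log 2 Q, ?_, ?_⟩
          · rw [Int.le_ediv_iff_mul_le hM0pos] at g1'; linarith
          · rw [Int.ediv_lt_iff_lt_mul hM0pos] at g2'; linarith
        have hjm : j ∈ Finset.Ico j0 j1 := hj j (nm p) hpa hpb (by exact_mod_cast hj2)
          (by exact_mod_cast hj3)
        have hr1 : (1 : ℤ) ≤ 2 ^ j := one_le_pow₀ (by norm_num)
        have hd : (k + 3) * 2 ^ j * (N : ℕ) < nm (q - p) := by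
          rw [hM0] at hj2
          nlinarith [mul_pos (by omega : (0 : ℤ) < k + 3) (by positivity : (0 : ℤ) < 2 ^ j * N),
            (by positivity : (0 : ℤ) < 2 ^ j * N)]
        obtain ⟨T, hT1, hT2⟩ := cross_many hcon hloop hp hq (by omega) hr1 hd
        refine ⟨T.map ⟨fun z => (j, z), fun z z' hz => (Prod.ext_iff.1 hz).2⟩, ?_, ?_, ?_⟩
        · intro i hi
          rw [Finset.mem_map] at hi
          obtain ⟨z, hz, rfl⟩ := hi
          rw [hImem]
          show j ∈ Finset.Ico j0 j1 ∧ z ∈ J j ∧ 3 * M0 * 2 ^ j ≤ 4 * nm (gp (2 ^ j) z) ∧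
            4 * nm (gp (2 ^ j) z) ≤ 9 * M0 * 2 ^ j
          have h8 := (hT2 z hz).2
          have h9 : nm (gp (2 ^ j) z) ≤ nm (gp (2 ^ j) z - p) + nm p := by
            simpa using nm_add_le (gp (2 ^ j) z - p) p
          have h10 : nm p ≤ nm (p - gp (2 ^ j) z) + nm (gp (2 ^ j) z) := by
            simpa using nm_add_le (p - gp (2 ^ j) z) (gp (2 ^ j) z)
          rw [nm_sub_comm] at h10
          have h11 : 4 * ((k + 3) * 2 ^ j * (N : ℕ) + 2 ^ j) ≤ M0 * 2 ^ j := by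
            rw [hM0]
            have : (2 : ℤ) ^ j * 1 ≤ 2 ^ j * N := mul_le_mul_of_nonneg_left hN1' (by positivity)
            nlinarith
          have h12 : M0 * 2 ^ (j + 1) = 2 * (M0 * 2 ^ j) := by rw [pow_succ]; ring
          rw [h12] at hj3
          refine ⟨hjm, hJ1 j z ?_, ?_, ?_⟩
          · rw [sub_zero]; linarith
          · linarith
          · linarith
        · rw [Finset.card_map]; exact hT1
        · intro i hi
          rw [Finset.mem_map] at hi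
          obtain ⟨z, hz, rfl⟩ := hi
          exact (hT2 z hz).1)
    have h5 : (N : ℝ) * ((NS a b ω).ncard : ℝ) ≤
        ∑ i ∈ I, (Z (gp (2 ^ i.1) i.2) (2 ^ i.1) ω : ℝ) := by
      exact_mod_cast hcount
    have h6 : (0 : ℝ) ≤ ((NS a b ω).ncard : ℝ) := by positivity
    calc u * (Nn a b ω : ℝ) = u * ((NS a b ω).ncard : ℝ) := rfl
      _ ≤ |u| * ((NS a b ω).ncard : ℝ) := mul_le_mul_of_nonneg_right (le_abs_self u) h6
      _ ≤ θ * N * ((NS a b ω).ncard : ℝ) := mul_le_mul_of_nonneg_right hsn h6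
      _ = θ * (N * ((NS a b ω).ncard : ℝ)) := by ring
      _ ≤ _ := mul_le_mul_of_nonneg_left h5 hθ.le
  have hEm' : Em μ (fun ω => u * (Nn a b ω : ℝ)) ≤
      ENNReal.ofReal ((b / a) ^ (5 * (D * b0) / Real.log 2)) :=
    (Em_mono hle).trans (hEmI.trans (ENNReal.ofReal_le_ofReal hbd))
  have hm : Measurable (fun ω => u * (Nn a b ω : ℝ)) := by
    have := NS_meas h2 hl a b
    exact ((measurable_from_top.comp this : Measurable fun ω =>
      (((NS a b ω).ncard : ℕ) : ℝ))).const_mul u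
  have hint := integrable_exp_of_Em hm hEm'
  refine ⟨hint, ?_⟩
  rw [Em_eq hint] at hEm'
  have ha0 : 0 < a := hM0R.trans_le ha
  have hba : 0 < b / a := by
    have : 0 < b := by linarith
    positivity
  rwa [ENNReal.ofReal_le_ofReal_iff (by positivity)] at hEm'

end Vale.Agent.P167.H45
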