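import Vale.Agent.P167.H45.Small3
import Vale.Agent.P167.H45.Mom

/-!
# P167, block E: summary (everything from the local bound `S_crossL`)
-/

namespace Vale.Agent.P167.H45

theorem s_large (hX : S_crossL) : S_large := large_main hX s_con s_two s_loc

theorem s_small (hX : S_crossL) : S_small := small_main hX

theorem s_mom (hX : S_crossL) : S_mom := mom_main hX s_con s_two s_loc s_out

end Vale.Agent.P167.H45
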