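import Vale.Agent.P167.Defs

/-!
# P167: the logarithm of the weight near `0`
-/

namespace Vale.Agent.P167.H45

open Real

theorem wf_eq (t : ℝ) : wf t = Real.cos t - √3 * Real.sin t := by
  unfold wf
  rw [Real.cos_add, Real.cos_pi_div_three, Real.sin_pi_div_three]
  ring

theorem wf_near {t : ℝ} (ht : |t| ≤ 1 / 10) : |wf t - (1 - √3 * t)| ≤ t ^ 2 := by
  have h3 : √3 ≤ 2 := by
    rw [Real.sqrt_le_left (by norm_num)]; norm_num
  have h30 : 0 ≤ √3 := Real.sqrt_nonneg 3
  have hc1 := Real.cos_le_one t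
  have hc2 := Real.one_sub_sq_div_two_le_cos (x := t)
  have hs : |Real.sin t - t| ≤ |t| ^ 3 / 4 := by
    have hb : ∀ x : ℝ, 0 ≤ x → x ≤ 1 / 10 → |Real.sin x - x| ≤ x ^ 3 / 4 := by
      intro x hx hx1
      rcases hx.eq_or_lt with rfl | hx0
      · simp
      · have h1 := Real.sin_gt_sub_cube hx0
        have h2 := Real.sin_lt hx0
        rw [abs_le]; constructor <;> linarith [pow_pos hx0 3]
    rcases le_total 0 t with h | h
    · rw [abs_of_nonneg h] at ht ⊢
      exact hb t h ht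
    · rw [abs_of_nonpos h] at ht ⊢
      have := hb (-t) (by linarith) ht
      rw [Real.sin_neg] at this
      have e : Real.sin t - t = -(-Real.sin t - -t) := by ring
      rw [e, abs_neg]; exact this
  have ht0 := abs_nonneg t
  have hcube : |t| ^ 3 / 4 ≤ t ^ 2 / 40 := by
    have : |t| ^ 3 = t ^ 2 * |t| := by rw [← sq_abs]; ring
    rw [this]
    nlinarith [sq_nonneg t]
  rw [wf_eq]
  rw [abs_le] at hs ⊢
  constructor
  · nlinarith [sq_nonneg t]
  · nlinarith [sq_nonneg t]

theorem wf_pos_near {t : ℝ} (ht : |t| ≤ 1 / 10) : 1 / 2 < wf t := by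
  have h := wf_near ht
  have h3 : √3 ≤ 2 := by
    rw [Real.sqrt_le_left (by norm_num)]; norm_num
  have h30 : 0 ≤ √3 := Real.sqrt_nonneg 3
  rw [abs_le] at h ht
  have : √3 * t ≤ 2 * (1 / 10) := by nlinarith
  have h2 : t ^ 2 ≤ 1 / 100 := by nlinarith
  linarith

theorem log_wf {t : ℝ} (ht : |t| ≤ 1 / 10) : |Real.log (wf t) + √3 * t| ≤ 9 * t ^ 2 := by
  have h := wf_near ht
  have hpos := wf_pos_near ht
  have h3 : √3 ≤ 2 := by
    rw [Real.sqrt_le_left (by norm_num)]; norm_num
  have h30 : 0 ≤ √3 := Real.sqrt_nonneg 3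
  have hsq : √3 ^ 2 = 3 := Real.sq_sqrt (by norm_num)
  have hp : 0 < wf t := by linarith
  have h1 := Real.log_le_sub_one_of_pos hp
  have h2 := Real.one_sub_inv_le_log_of_pos hp
  rw [abs_le] at h ⊢
  constructor
  · set y := wf t - 1 with hy
    have hy1 : wf t = 1 + y := by rw [hy]; ring
    have h4 : 1 - (wf t)⁻¹ = y - y ^ 2 / wf t := by
      rw [hy1] at hp ⊢
      field_simp
      ring
    have h5 : y ^ 2 / wf t ≤ 2 * y ^ 2 := by
      rw [div_le_iff₀ hp]
      nlinarith [sq_nonneg y]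
    have h6 : y ^ 2 ≤ 4 * t ^ 2 := by
      have h7 : |y| ≤ 2 * |t| := by
        have h8 : |y| ≤ |√3 * t| + t ^ 2 := by
          have : y = -(√3 * t) + (wf t - (1 - √3 * t)) := by rw [hy]; ring
          rw [this]
          refine (abs_add_le _ _).trans ?_
          rw [abs_neg]
          exact add_le_add le_rfl (abs_le.2 h)
        rw [abs_mul, abs_of_nonneg h30] at h8
        have h9 : t ^ 2 = |t| * |t| := by rw [← sq, sq_abs]
        have h10 : √3 ≤ 9 / 5 := by
          rw [Real.sqrt_le_left (by norm_num)]; norm_num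
        rw [h9] at h8
        nlinarith [abs_nonneg t]
      calc y ^ 2 = |y| ^ 2 := (sq_abs y).symm
        _ ≤ (2 * |t|) ^ 2 := pow_le_pow_left₀ (abs_nonneg y) h7 2
        _ = _ := by rw [mul_pow, sq_abs]; norm_num
    rw [h4] at h2
    linarith
  · nlinarith [sq_nonneg t]

end Vale.Agent.P167.H45
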