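import Vale.Agent.P167.H45.Large
import Vale.Agent.P167.H45.Real1
import Vale.Agent.P167.Top.PlaneW

/-!
# P167, block E2: small loops: geometry
-/

namespace Vale.Agent.P167.H45

open Finset Filter Topology MeasureTheory ProbabilityTheory
open Vale.Agent.P167.H562

theorem vs_nonempty {ω : Cfg} {ℓ : Finset Ed} (h : IsLoop ω ℓ) : (vs ℓ).Nonempty :=
  (IsLoop.nonempty h).image _

/-- Lower left corner of the bounding box. -/
noncomputable def bs (ℓ : Finset Ed) : ℤ × ℤ :=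
  if h : (vs ℓ).Nonempty then (((vs ℓ).image Prod.fst).min' (h.image _),
    ((vs ℓ).image Prod.snd).min' (h.image _)) else 0

theorem bs_le {ℓ : Finset Ed} {v : ℤ × ℤ} (hv : v ∈ vs ℓ) : (bs ℓ).1 ≤ v.1 ∧ (bs ℓ).2 ≤ v.2 := by
  have h : (vs ℓ).Nonempty := ⟨v, hv⟩
  rw [bs, dif_pos h]
  exact ⟨Finset.min'_le _ _ (Finset.mem_image_of_mem _ hv),
    Finset.min'_le _ _ (Finset.mem_image_of_mem _ hv)⟩

theorem bs_mem {ℓ : Finset Ed} (h : (vs ℓ).Nonempty) :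
    (∃ v ∈ vs ℓ, v.1 = (bs ℓ).1) ∧ ∃ v ∈ vs ℓ, v.2 = (bs ℓ).2 := by
  rw [bs, dif_pos h]
  constructor
  · obtain ⟨v, hv, he⟩ := Finset.mem_image.1 (Finset.min'_mem ((vs ℓ).image Prod.fst) (h.image _))
    exact ⟨v, hv, he⟩
  · obtain ⟨v, hv, he⟩ := Finset.mem_image.1 (Finset.min'_mem ((vs ℓ).image Prod.snd) (h.image _))
    exact ⟨v, hv, he⟩

/-- The visited squares of a small loop lie in a box above the corner. -/
theorem small_box {d : ℝ} {ℓ : Finset Ed} (hs : Small d ℓ) {v : ℤ × ℤ} (hv : v ∈ vs ℓ) :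
    ((v.1 - (bs ℓ).1 : ℤ) : ℝ) < d ∧ ((v.2 - (bs ℓ).2 : ℤ) : ℝ) < d := by
  obtain ⟨⟨u, hu, h1⟩, w, hw, h2⟩ := bs_mem ⟨v, hv⟩
  constructor
  · have h3 := hs v hv u hu
    have h4 : v.1 - u.1 ≤ nm (v - u) := (le_abs_self _).trans (le_max_left _ _)
    rw [← h1]
    exact lt_of_le_of_lt (by exact_mod_cast h4) h3
  · have h3 := hs v hv w hw
    have h4 : v.2 - w.2 ≤ nm (v - w) := (le_abs_self _).trans (le_max_right _ _)
    rw [← h2]
    exact lt_of_le_of_lt (by exact_mod_cast h4) h3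

/-- Every loop has diameter at least one. -/
theorem not_small_one (hcon : S_con) {ω : Cfg} {ℓ : Finset Ed} (hℓ : IsLoop ω ℓ) {d : ℝ}
    (hd : d ≤ 1) (hne : ∃ u ∈ vs ℓ, ∃ v ∈ vs ℓ, u ≠ v) : ¬ Small d ℓ := by
  obtain ⟨u, hu, v, hv, huv⟩ := hne
  intro hs
  have h1 := hs u hu v hv
  have h2 : 1 ≤ nm (u - v) := by
    by_contra hcon
    push Not at hcon
    have h3 : nm (u - v) ≤ 0 := by omega
    rw [nm_le] at h3
    simp only [Prod.fst_sub, Prod.snd_sub, abs_nonpos_iff] at h3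
    exact huv (Prod.ext (by omega) (by omega))
  have h3 : (1 : ℝ) ≤ nm (u - v) := by exact_mod_cast h2
  linarith

/-- Every loop visits two squares. -/
theorem two_squares {ω : Cfg} {ℓ : Finset Ed} (hℓ : IsLoop ω ℓ) :
    ∃ u ∈ vs ℓ, ∃ v ∈ vs ℓ, u ≠ v := by
  obtain ⟨e, he⟩ := hℓ
  have h0 : e ∈ ℓ := (he e).2 ⟨0, rfl⟩
  have h1 : nx ω e ∈ ℓ := (he _).2 ⟨1, rfl⟩
  refine ⟨hdv e, Finset.mem_image_of_mem _ h0, hdv (nx ω e), Finset.mem_image_of_mem _ h1, ?_⟩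
  rw [← tlv_nx ω e]
  rcases nx ω e with ⟨x, y⟩ | ⟨x, y⟩ <;> simp only [hdv, tlv] <;> split_ifs <;> simp

/-- The mass surrounded by a small loop. -/
theorem G_bound (ho : S_out) {Cm ρ : ℝ} {m : ℤ × ℤ → ℝ} (hC : 0 ≤ Cm) (hm : Chg Cm ρ m) {ω : Cfg}
    {ℓ : Finset Ed} (hℓ : IsLoop ω ℓ) {d : ℝ} (hs : Small d ℓ) :
    0 ≤ G m ℓ ∧ G m ℓ ≤ Cm / ρ ^ 2 * d ^ 2 := by
  classical
  have hne := vs_nonempty hℓ
  obtain ⟨v0, hv0⟩ := hne
  have hd0 : 0 < d := by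
    have := hs v0 hv0 v0 hv0
    simpa [nm] using this
  set a := bs ℓ with ha
  obtain ⟨n1, hn1⟩ : ∃ n1 : ℤ, n1 = ⌈d⌉ - 1 := ⟨_, rfl⟩
  have hn1' : (n1 : ℝ) < d := by
    rw [hn1]; push_cast; linarith [Int.ceil_lt_add_one d]
  have hn0 : 0 ≤ n1 := by
    rw [hn1]; have := Int.ceil_pos.2 hd0; omega
  have hbox : ∀ v ∈ vs ℓ, a.1 ≤ v.1 ∧ v.1 ≤ a.1 + n1 ∧ a.2 ≤ v.2 ∧ v.2 ≤ a.2 + n1 := by
    intro v hv
    obtain ⟨h1, h2⟩ := small_box hs hv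
    obtain ⟨h3, h4⟩ := bs_le hv
    have h5 : v.1 - a.1 < ⌈d⌉ := Int.lt_ceil.2 h1
    have h6 : v.2 - a.2 < ⌈d⌉ := Int.lt_ceil.2 h2
    refine ⟨h3, by omega, h4, by omega⟩
  set F : Finset (ℤ × ℤ) := (Finset.Ioc a.1 (a.1 + n1)) ×ˢ (Finset.Ioc a.2 (a.2 + n1)) with hF
  have hins : ins ℓ ⊆ (F : Set (ℤ × ℤ)) := by
    intro s hs'
    have := ho ω ℓ hℓ _ _ _ _ hbox s hs'
    rw [Finset.mem_coe, hF, Finset.mem_product, Finset.mem_Ioc, Finset.mem_Ioc]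
    exact ⟨⟨this.1, this.2.1⟩, this.2.2.1, this.2.2.2⟩
  have hfin : (ins ℓ).Finite := (Finset.finite_toSet F).subset hins
  unfold G
  rw [finsum_mem_eq_finite_toFinset_sum _ hfin]
  refine ⟨Finset.sum_nonneg fun s _ => hm.nonneg s, ?_⟩
  have hcard : ((hfin.toFinset).card : ℝ) ≤ d ^ 2 := by
    have h1 : hfin.toFinset ⊆ F := by
      intro s hs'
      rw [Set.Finite.mem_toFinset] at hs'
      exact Finset.mem_coe.1 (hins hs')
    have h2 := Finset.card_le_card h1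
    have h3 : (F.card : ℝ) = (n1 : ℝ) ^ 2 := by
      rw [hF, Finset.card_product, Int.card_Ioc, Int.card_Ioc]
      have e1 : a.1 + n1 - a.1 = n1 := by ring
      have e2 : a.2 + n1 - a.2 = n1 := by ring
      rw [e1, e2, Nat.cast_mul, ← sq]
      have : ((n1.toNat : ℕ) : ℤ) = n1 := Int.toNat_of_nonneg hn0
      have : ((n1.toNat : ℕ) : ℝ) = n1 := by exact_mod_cast this
      rw [this]
    calc ((hfin.toFinset).card : ℝ) ≤ (F.card : ℝ) := by exact_mod_cast h2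
      _ = (n1 : ℝ) ^ 2 := h3
      _ ≤ d ^ 2 := pow_le_pow_left₀ (by exact_mod_cast hn0) hn1'.le 2
  calc ∑ s ∈ hfin.toFinset, m s ≤ ∑ _s ∈ hfin.toFinset, Cm / ρ ^ 2 :=
        Finset.sum_le_sum fun s _ => hm.le s
    _ = ((hfin.toFinset).card : ℝ) * (Cm / ρ ^ 2) := by rw [Finset.sum_const, nsmul_eq_mul]
    _ ≤ d ^ 2 * (Cm / ρ ^ 2) := mul_le_mul_of_nonneg_right hcard (by positivity)
    _ = _ := by ring

theorem G_smul (t : ℝ) (m : ℤ × ℤ → ℝ) (ℓ : Finset Ed) (hf : (ins ℓ).Finite) :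
    G (fun x => t * m x) ℓ = t * G m ℓ := by
  unfold G
  rw [finsum_mem_eq_finite_toFinset_sum _ hf, finsum_mem_eq_finite_toFinset_sum _ hf,
    Finset.mul_sum]

theorem ins_fin (ho : S_out) {ω : Cfg} {ℓ : Finset Ed} (hℓ : IsLoop ω ℓ) : (ins ℓ).Finite := by
  classical
  obtain ⟨B, hB⟩ : ∃ B : ℤ, ∀ v ∈ vs ℓ, nm v ≤ B := by
    obtain ⟨B, hB⟩ := ((vs ℓ).image nm).bddAbove
    exact ⟨B, fun v hv => hB (Finset.mem_coe.2 (Finset.mem_image_of_mem _ hv))⟩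
  refine (Finset.finite_toSet ((Finset.Icc (-B) B) ×ˢ (Finset.Icc (-B) B))).subset ?_
  intro s hs
  have := ho ω ℓ hℓ (-B) B (-B) B (fun v hv => by
    have := hB v hv
    rw [nm_le, abs_le, abs_le] at this
    omega) s hs
  rw [Finset.mem_coe, Finset.mem_product, Finset.mem_Icc, Finset.mem_Icc]
  omega

end Vale.Agent.P167.H45
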