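import Vale.Agent.P167.H45.Small2

/-!
# P167, block E2: exponential moments for the small loops near a charge
-/

namespace Vale.Agent.P167.H45

open Finset Filter Topology MeasureTheory ProbabilityTheory
open Vale.Agent.P167.H562

theorem Em_add {A B : Cfg → ℝ} (hA : Measurable A) (hB : Measurable B) {a b : ℝ}
    (h1 : Em μ (fun ω => 2 * A ω) ≤ ENNReal.ofReal (Real.exp a))
    (h2 : Em μ (fun ω => 2 * B ω) ≤ ENNReal.ofReal (Real.exp b)) :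
    Em μ (fun ω => A ω + B ω) ≤ ENNReal.ofReal (Real.exp ((a + b) / 2)) := by
  have h := Em_holder (μ := μ) (Finset.univ : Finset Bool) (Y := fun i => cond i A B)
    (fun i _ => by cases i <;> assumption) (θ := fun _ => 1 / 2) (B := fun i => cond i a b)
    (fun _ _ => by norm_num) (by simp) (fun i _ => by
      cases i
      · simpa using h2
      · simpa using h1)
  simp only [Fintype.sum_bool, cond_true, cond_false] at h
  refine h.trans (ENNReal.ofReal_le_ofReal (Real.exp_le_exp.2 (by linarith)))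

theorem Em_add_const {A : Cfg → ℝ} {a : ℝ} {B : ENNReal} (h1 : Em μ A ≤ B) :
    Em μ (fun ω => a + A ω) ≤ ENNReal.ofReal (Real.exp a) * B := by
  unfold Em at *
  calc ∫⁻ ω, ENNReal.ofReal (Real.exp (a + A ω)) ∂μ
      = ∫⁻ ω, ENNReal.ofReal (Real.exp a) * ENNReal.ofReal (Real.exp (A ω)) ∂μ := by
        refine lintegral_congr fun ω => ?_
        rw [Real.exp_add, ENNReal.ofReal_mul (Real.exp_pos _).le]
    _ = ENNReal.ofReal (Real.exp a) * ∫⁻ ω, ENNReal.ofReal (Real.exp (A ω)) ∂μ :=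
        lintegral_const_mul' _ _ ENNReal.ofReal_ne_top
    _ ≤ _ := mul_le_mul_right h1 _

theorem BL_measR (c : ℤ × ℤ) (ρ d : ℝ) : Measurable (fun ω => ((BL c ρ d ω).ncard : ℝ)) := by
  have h : Measurable (fun n : ℕ => (n : ℝ)) := measurable_from_top
  exact h.comp (BL_meas s_two s_loc c ρ d)

/-- Linear statistics of the small loops. -/
theorem lin_part (hX : S_crossL) {Cm κ : ℝ} (hCm : 0 < Cm) (hκ : 0 < κ) (hκ1 : κ ≤ 1 / 8)
    (T1 : ℝ) : ∃ B : ℝ, ∀ ρ : ℝ, 4 ≤ ρ → ∀ m, Chg Cm ρ m → ∀ t : ℝ, |t| ≤ T1 →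
      Em μ (fun ω => t * (∑ ℓ ∈ sf ρ (κ * ρ) ω, G m ℓ -
        ∫ ω', ∑ ℓ ∈ sf ρ (κ * ρ) ω', G m ℓ ∂μ)) ≤ ENNReal.ofReal (Real.exp B) := by
  classical
  set α : ℝ := Cm * κ ^ 2 with hα
  set s1 : ℝ := 8 * α * |T1| with hs1
  have hα0 : 0 < α := by positivity
  have hs0 : 0 ≤ s1 := by positivity
  obtain ⟨C, hC⟩ := large_gen hX s_con s_two (1 / 8) (s1 + 1) (by norm_num)
  set M : ℝ := max C 0 with hM
  have hM0 : 0 ≤ M := le_max_right _ _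
  refine ⟨8 * M * Real.exp ((s1 + 1) * M) * (4 : ℕ) ^ 2 * α ^ 2 * |400 / κ ^ 2| * |T1| ^ 2,
    fun ρ hρ m hm t ht => ?_⟩
  have ht' : |t| ≤ |T1| := ht.trans (le_abs_self _)
  have hρ0 : 0 < ρ := by linarith
  obtain ⟨Ig, hIg⟩ := grid_scale hκ hκ1 hρ
  -- number of scales
  have hex : ∃ J : ℕ, κ * ρ / 2 ^ J ≤ 1 := by
    obtain ⟨J, hJ⟩ := pow_unbounded_of_one_lt (κ * ρ) (by norm_num : (1 : ℝ) < 2)
    exact ⟨J, by rw [div_le_one (by positivity)]; exact hJ.le⟩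
  obtain ⟨J, hJ, hJ'⟩ : ∃ J : ℕ, κ * ρ / 2 ^ J ≤ 1 ∧ ∀ j < J, 1 ≤ κ * ρ / 2 ^ j :=
    ⟨Nat.find hex, Nat.find_spec hex, fun j hj => (not_le.1 (Nat.find_min hex hj)).le⟩
  have hGb : ∀ j : ℕ, ∀ ω ℓ, IsLoop ω ℓ → Small (κ * ρ / 2 ^ j) ℓ →
      |G m ℓ| ≤ α * (1 / 4) ^ j := by
    intro j ω ℓ h1 h2
    obtain ⟨g1, g2⟩ := G_bound s_out hCm.le hm h1 h2
    rw [abs_of_nonneg g1]
    refine g2.trans (le_of_eq ?_)
    rw [hα]
    have : ((1 : ℝ) / 4) ^ j = 1 / (2 ^ j) ^ 2 := by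
      rw [← pow_mul, mul_comm j 2, pow_mul, one_div, inv_pow]; norm_num
    rw [this]; field_simp
  have hmain := multiscale (μ := μ) J 4 (by norm_num)
    (fun j k => (Ig j).filter (fun z => code z = k))
    (X := fun j z ω => XX ρ (κ * ρ) (G m) j z ω)
    (K := fun j z ω => ((BL (gp ⌈κ * ρ / 2 ^ j⌉ z) (2 * (⌈κ * ρ / 2 ^ j⌉ : ℝ))
      (1 / 8 * (2 * (⌈κ * ρ / 2 ^ j⌉ : ℝ))) ω).ncard : ℝ))
    (fun j _ k z _ => by
      obtain ⟨F, hF⟩ := Bq_fin ⌈κ * ρ / 2 ^ j⌉ z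
      exact meas_locfun F fun ω ω' hw => XX_loc hJ (G m) j z ω ω' fun v hv => hw v (hF v hv))
    (fun j _ k z _ => BL_measR _ _ _)
    (fun j _ k => by
      refine iIndepFun_of_local iInd
        (S := fun z : ((Ig j).filter (fun z => code z = k) : Finset (ℤ × ℤ)) =>
          Bq ⌈κ * ρ / 2 ^ j⌉ (z : ℤ × ℤ)) ?_ (fun z => ?_) (fun z => XX_loc hJ (G m) j z)
      · intro z z' hzz
        have h1 : code (z : ℤ × ℤ) = k := (Finset.mem_filter.1 z.2).2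
        have h2 : code (z' : ℤ × ℤ) = k := (Finset.mem_filter.1 z'.2).2
        obtain ⟨h3, h4⟩ := code_eq (h1.trans h2.symm)
        exact Bq_disj (fun h => hzz (Subtype.ext h)) h3 h4
      · obtain ⟨F, hF⟩ := Bq_fin ⌈κ * ρ / 2 ^ j⌉ (z : ℤ × ℤ)
        exact meas_locfun F fun ω ω' hw => XX_loc hJ (G m) j z ω ω' fun v hv => hw v (hF v hv))
    (α := α) (β := 400 / κ ^ 2) (s := s1) (t := t) (M := M) hα0.le hs0 hM0
    (fun j _ k z _ ω => by positivity)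
    (fun j hj k z _ ω => XX_le hJ (hJ' j hj) z ω (by positivity) (fun ℓ h1 h2 => hGb j ω ℓ h1 h2))
    (fun j hj k => by
      refine le_trans ?_ (hIg j (hJ' j hj)).1
      exact_mod_cast Finset.card_filter_le _ _)
    (by
      rw [hs1]
      have : 8 * α * |t| ≤ 8 * α * |T1| := mul_le_mul_of_nonneg_left ht' (by positivity)
      push_cast
      linarith)
    (fun j hj k z _ => by
      refine (hC _ (2 * (⌈κ * ρ / 2 ^ j⌉ : ℝ)) ?_).trans (ENNReal.ofReal_le_ofReal (le_max_left _ _))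
      have : (1 : ℝ) ≤ ⌈κ * ρ / 2 ^ j⌉ := (hJ' j hj).trans (Int.le_ceil _)
      linarith)
  have hint : ∀ j z, Integrable (fun ω => XX ρ (κ * ρ) (G m) j z ω) μ := by
    intro j z
    obtain ⟨F, hF⟩ := Bq_fin ⌈κ * ρ / 2 ^ j⌉ z
    exact loc_int F fun ω ω' hw => XX_loc hJ (G m) j z ω ω' fun v hv => hw v (hF v hv)
  have hdec := fun ω => decomp hJ hJ' (fun j hj => (hIg j hj).2) (G m) ω
  have hI : ∫ ω', ∑ ℓ ∈ sf ρ (κ * ρ) ω', G m ℓ ∂μ =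
      ∑ j ∈ Finset.range J, ∑ z ∈ Ig j, ∫ ω', XX ρ (κ * ρ) (G m) j z ω' ∂μ := by
    simp only [hdec]
    rw [integral_finsetSum _ fun j _ => integrable_finsetSum _ fun z _ => hint j z]
    refine Finset.sum_congr rfl fun j _ => ?_
    rw [integral_finsetSum _ fun z _ => hint j z]
  have heq : (fun ω => t * (∑ ℓ ∈ sf ρ (κ * ρ) ω, G m ℓ -
      ∫ ω', ∑ ℓ ∈ sf ρ (κ * ρ) ω', G m ℓ ∂μ)) =
      fun ω => t * ∑ j ∈ Finset.range J, ∑ k : Fin 4, ∑ i ∈ (Ig j).filter (fun z => code z = k),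
        (XX ρ (κ * ρ) (G m) j i ω - ∫ x, XX ρ (κ * ρ) (G m) j i x ∂μ) := by
    ext ω
    congr 1
    rw [hI, hdec, ← Finset.sum_sub_distrib]
    refine Finset.sum_congr rfl fun j _ => ?_
    rw [← Finset.sum_sub_distrib]
    exact (Finset.sum_fiberwise (Ig j) code _).symm
  rw [heq]
  refine hmain.trans (ENNReal.ofReal_le_ofReal (Real.exp_le_exp.2 ?_))
  have ht2 : t ^ 2 ≤ |T1| ^ 2 := by
    rw [← sq_abs t]; exact pow_le_pow_left₀ (abs_nonneg _) ht' 2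
  exact mul_le_mul_of_nonneg_left ht2 (by positivity)

/-- Quadratic statistics of the small loops. -/
theorem quad_part (hX : S_crossL) {Cm κ : ℝ} (hCm : 0 < Cm) (hκ : 0 < κ) (hκ1 : κ ≤ 1 / 8)
    {lam : ℝ} (hlam : 0 ≤ lam) : ∃ B : ℝ, ∀ ρ : ℝ, 4 ≤ ρ → ∀ m, Chg Cm ρ m →
      Em μ (fun ω => lam * ∑ ℓ ∈ sf ρ (κ * ρ) ω, (G m ℓ) ^ 2) ≤ ENNReal.ofReal (Real.exp B) := by
  classical
  set α : ℝ := Cm * κ ^ 2 with hα
  set β : ℝ := 400 / κ ^ 2 with hβ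
  have hα0 : 0 < α := by positivity
  have hβ0 : 0 < β := by positivity
  obtain ⟨C, hC⟩ := large_gen hX s_con s_two (1 / 8) (2 * β * lam * α ^ 2) (by norm_num)
  set M : ℝ := max C 1 with hM
  have hM1 : 1 ≤ M := le_max_right _ _
  have hlogM : 0 ≤ Real.log M := Real.log_nonneg hM1
  refine ⟨Real.log M, fun ρ hρ m hm => ?_⟩
  have hρ0 : 0 < ρ := by linarith
  obtain ⟨Ig, hIg⟩ := grid_scale hκ hκ1 hρ
  have hex : ∃ J : ℕ, κ * ρ / 2 ^ J ≤ 1 := by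
    obtain ⟨J, hJ⟩ := pow_unbounded_of_one_lt (κ * ρ) (by norm_num : (1 : ℝ) < 2)
    exact ⟨J, by rw [div_le_one (by positivity)]; exact hJ.le⟩
  obtain ⟨J, hJ, hJ'⟩ : ∃ J : ℕ, κ * ρ / 2 ^ J ≤ 1 ∧ ∀ j < J, 1 ≤ κ * ρ / 2 ^ j :=
    ⟨Nat.find hex, Nat.find_spec hex, fun j hj => (not_le.1 (Nat.find_min hex hj)).le⟩
  have hGb : ∀ j : ℕ, ∀ ω ℓ, IsLoop ω ℓ → Small (κ * ρ / 2 ^ j) ℓ →
      |(G m ℓ) ^ 2| ≤ (α * (1 / 4) ^ j) ^ 2 := by
    intro j ω ℓ h1 h2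
    obtain ⟨g1, g2⟩ := G_bound s_out hCm.le hm h1 h2
    rw [abs_of_nonneg (sq_nonneg _)]
    refine pow_le_pow_left₀ g1 (g2.trans (le_of_eq ?_)) 2
    rw [hα]
    have : ((1 : ℝ) / 4) ^ j = 1 / (2 ^ j) ^ 2 := by
      rw [← pow_mul, mul_comm j 2, pow_mul, one_div, inv_pow]; norm_num
    rw [this]; field_simp
  set K : ℕ → ℤ × ℤ → Cfg → ℝ := fun j z ω => ((BL (gp ⌈κ * ρ / 2 ^ j⌉ z)
    (2 * (⌈κ * ρ / 2 ^ j⌉ : ℝ)) (1 / 8 * (2 * (⌈κ * ρ / 2 ^ j⌉ : ℝ))) ω).ncard : ℝ) with hK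
  have hKm : ∀ j z, Measurable (K j z) := fun j z => BL_measR _ _ _
  let I : Finset (Σ _ : ℕ, ℤ × ℤ) := (Finset.range J).sigma Ig
  let θ : (Σ _ : ℕ, ℤ × ℤ) → ℝ := fun p => (1 / 2) ^ (p.1 + 1) * (1 / 4) ^ p.1 / β
  have hθ : ∀ p, 0 < θ p := fun p => by positivity
  have hsum : ∑ p ∈ I, θ p ≤ 1 := by
    rw [Finset.sum_sigma]
    calc ∑ j ∈ Finset.range J, ∑ z ∈ Ig j, θ ⟨j, z⟩
        ≤ ∑ j ∈ Finset.range J, ((1 : ℝ) / 2) ^ (j + 1) := by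
          refine Finset.sum_le_sum fun j hj => ?_
          simp only [θ, Finset.sum_const, nsmul_eq_mul]
          have h1 := (hIg j (hJ' j (Finset.mem_range.1 hj))).1
          rw [← hβ] at h1
          calc ((Ig j).card : ℝ) * ((1 / 2) ^ (j + 1) * (1 / 4) ^ j / β)
              ≤ (β * 4 ^ j) * ((1 / 2) ^ (j + 1) * (1 / 4) ^ j / β) :=
                mul_le_mul_of_nonneg_right h1 (by positivity)
            _ = (1 / 2) ^ (j + 1) * ((4 : ℝ) ^ j * (1 / 4) ^ j) := by field_simp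
            _ = (1 / 2) ^ (j + 1) := by rw [← mul_pow]; norm_num
      _ ≤ 1 := geom_half J
  have hB : ∀ p ∈ I, Em μ (fun ω => (θ p)⁻¹ * (lam * ((α * (1 / 4) ^ p.1) ^ 2 * K p.1 p.2 ω))) ≤
      ENNReal.ofReal (Real.exp (Real.log M)) := by
    rintro ⟨j, z⟩ hp
    have hj : j < J := Finset.mem_range.1 (Finset.mem_sigma.1 hp).1
    have h1 : (1 : ℝ) ≤ ⌈κ * ρ / 2 ^ j⌉ := (hJ' j hj).trans (Int.le_ceil _)
    have h2 := hC (gp ⌈κ * ρ / 2 ^ j⌉ z) (2 * (⌈κ * ρ / 2 ^ j⌉ : ℝ)) (by linarith)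
    rw [Real.exp_log (by linarith)]
    refine le_trans (Em_mono fun ω => ?_) (h2.trans (ENNReal.ofReal_le_ofReal (le_max_left _ _)))
    have hK0 : 0 ≤ K j z ω := by simp only [hK]; positivity
    have e1 : (θ ⟨j, z⟩)⁻¹ * (lam * ((α * (1 / 4) ^ j) ^ 2 * K j z ω)) =
        (2 * β * lam * α ^ 2) * ((1 / 2) ^ j * K j z ω) := by
      simp only [θ]
      have e2 : ((1 : ℝ) / 4) ^ j = (1 / 2) ^ j * (1 / 2) ^ j := by rw [← mul_pow]; norm_num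
      have e3 : ((1 : ℝ) / 2) ^ j ≠ 0 := by positivity
      rw [e2, pow_succ]
      field_simp
    show (θ ⟨j, z⟩)⁻¹ * (lam * ((α * (1 / 4) ^ j) ^ 2 * K j z ω)) ≤ _
    rw [e1]
    have h3 : ((1 : ℝ) / 2) ^ j * K j z ω ≤ 1 * K j z ω :=
      mul_le_mul_of_nonneg_right (pow_le_one₀ (by norm_num) (by norm_num)) hK0
    rw [one_mul] at h3
    exact mul_le_mul_of_nonneg_left h3 (by positivity)
  have hfin := Em_holder (μ := μ) I (Y := fun p ω => lam * ((α * (1 / 4) ^ p.1) ^ 2 * K p.1 p.2 ω))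
    (fun p _ => ((hKm p.1 p.2).const_mul _).const_mul _) (fun p _ => hθ p) hsum hB
  have hle : ∀ ω, lam * ∑ ℓ ∈ sf ρ (κ * ρ) ω, (G m ℓ) ^ 2 ≤
      ∑ p ∈ I, lam * ((α * (1 / 4) ^ p.1) ^ 2 * K p.1 p.2 ω) := by
    intro ω
    rw [decomp hJ hJ' (fun j hj => (hIg j hj).2) (fun ℓ => (G m ℓ) ^ 2) ω, ← Finset.mul_sum,
      Finset.sum_sigma]
    refine mul_le_mul_of_nonneg_left (Finset.sum_le_sum fun j hj => Finset.sum_le_sum fun z _ => ?_)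
      hlam
    exact (le_abs_self _).trans (XX_le hJ (hJ' j (Finset.mem_range.1 hj)) z ω (by positivity)
      (fun ℓ h1 h2 => hGb j ω ℓ h1 h2))
  refine (Em_mono hle).trans (hfin.trans (ENNReal.ofReal_le_ofReal (Real.exp_le_exp.2 ?_)))
  rw [← Finset.sum_mul]
  calc (∑ p ∈ I, θ p) * Real.log M ≤ 1 * Real.log M := mul_le_mul_of_nonneg_right hsum hlogM
    _ = _ := one_mul _

theorem small_main (hX : S_crossL) : S_small := by
  classical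
  intro Cm T hCm hT
  set κ : ℝ := min (1 / 8) (1 / (10 * (T * Cm + 1))) with hκd
  have hκ : 0 < κ := lt_min (by norm_num) (by positivity)
  have hκ1 : κ ≤ 1 / 8 := min_le_left _ _
  have hκ2 : T * (Cm * κ ^ 2) ≤ 1 / 10 := by
    have h1 : κ ≤ 1 / (10 * (T * Cm + 1)) := min_le_right _ _
    have h2 : κ ^ 2 ≤ κ := by nlinarith
    have h3 : T * Cm * κ ^ 2 ≤ T * Cm * (1 / (10 * (T * Cm + 1))) :=
      mul_le_mul_of_nonneg_left (h2.trans h1) (by positivity)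
    have h4 : T * Cm * (1 / (10 * (T * Cm + 1))) ≤ 1 / 10 := by
      rw [mul_one_div, div_le_div_iff₀ (by positivity) (by norm_num)]
      nlinarith [mul_pos hT hCm]
    linarith
  refine ⟨κ, hκ, hκ1, fun s => ?_⟩
  obtain ⟨B1, hB1⟩ := lin_part hX hCm hκ hκ1 (2 * √3 * |s| * T)
  obtain ⟨B2, hB2⟩ := quad_part hX hCm hκ hκ1 (lam := 2 * (9 * |s| * T ^ 2)) (by positivity)
  refine ⟨Real.exp ((B1 + B2) / 2), 4, Real.exp_pos _, fun ρ hρ m hm t ht => ?_⟩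
  have hρ0 : 0 < ρ := by linarith
  -- masses of the small loops
  have hG : ∀ ω, ∀ ℓ ∈ sf ρ (κ * ρ) ω, 0 ≤ G m ℓ ∧ |t * G m ℓ| ≤ 1 / 10 ∧
      G (fun x => t * m x) ℓ = t * G m ℓ := by
    intro ω ℓ hℓ
    rw [mem_sf] at hℓ
    obtain ⟨g1, g2⟩ := G_bound s_out hCm.le hm hℓ.1 hℓ.2.2
    refine ⟨g1, ?_, G_smul t m ℓ (ins_fin s_out hℓ.1)⟩
    rw [abs_mul, abs_of_nonneg g1]
    have h3 : Cm / ρ ^ 2 * (κ * ρ) ^ 2 = Cm * κ ^ 2 := by field_simp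
    rw [h3] at g2
    calc |t| * G m ℓ ≤ T * (Cm * κ ^ 2) := mul_le_mul ht g2 g1 hT.le
      _ ≤ 1 / 10 := hκ2
  have hYeq : ∀ ω, Yn (ρ - 2) (2 * ρ + 2) (κ * ρ) (fun x => t * m x) ω =
      ∏ ℓ ∈ sf ρ (κ * ρ) ω, wf (t * G m ℓ) := by
    intro ω
    unfold Yn
    have h1 := finprod_mem_eq_finite_toFinset_prod (fun ℓ => wf (G (fun x => t * m x) ℓ))
      (SLo_fin ρ (κ * ρ) ω)
    have h2 : (∏ᶠ ℓ ∈ {ℓ | IsLoop ω ℓ ∧ Vis (ρ - 2) (2 * ρ + 2) ℓ ∧ Small (κ * ρ) ℓ},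
        wf (G (fun x => t * m x) ℓ)) = ∏ᶠ ℓ ∈ SLo ρ (κ * ρ) ω, wf (G (fun x => t * m x) ℓ) := rfl
    rw [h2, h1]
    exact Finset.prod_congr rfl fun ℓ hℓ => by rw [(hG ω ℓ hℓ).2.2]
  have hwpos : ∀ ω, ∀ ℓ ∈ sf ρ (κ * ρ) ω, 0 < wf (t * G m ℓ) := fun ω ℓ hℓ => by
    have := wf_pos_near (hG ω ℓ hℓ).2.1
    linarith
  have hYpos : ∀ ω, 0 < Yn (ρ - 2) (2 * ρ + 2) (κ * ρ) (fun x => t * m x) ω := by
    intro ω
    rw [hYeq]
    exact Finset.prod_pos (hwpos ω)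
  obtain ⟨F, hF⟩ := sf_loc (ρ := ρ) (d := κ * ρ)
  have hYloc : ∀ ω ω' : Cfg, (∀ v ∈ F, ω v = ω' v) →
      Yn (ρ - 2) (2 * ρ + 2) (κ * ρ) (fun x => t * m x) ω =
      Yn (ρ - 2) (2 * ρ + 2) (κ * ρ) (fun x => t * m x) ω' := by
    intro ω ω' hw
    rw [hYeq, hYeq, hF ω ω' hw]
  have hint : Integrable (fun ω => Yn (ρ - 2) (2 * ρ + 2) (κ * ρ) (fun x => t * m x) ω ^ s) μ :=
    loc_int F fun ω ω' hw => by rw [hYloc ω ω' hw]
  refine ⟨hYpos, meas_locfun F hYloc, hint, ?_⟩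
  -- the sums
  set S : Cfg → ℝ := fun ω => ∑ ℓ ∈ sf ρ (κ * ρ) ω, G m ℓ with hS
  set Q : Cfg → ℝ := fun ω => ∑ ℓ ∈ sf ρ (κ * ρ) ω, (G m ℓ) ^ 2 with hQ
  have hnb : nb (ρ - 2) (2 * ρ + 2) (κ * ρ) m = ∫ ω, S ω ∂μ := by
    unfold nb
    refine integral_congr_ae (Filter.Eventually.of_forall fun ω => ?_)
    exact finsum_mem_eq_finite_toFinset_sum (fun ℓ => G m ℓ) (SLo_fin ρ (κ * ρ) ω)
  have hSm : Measurable S := meas_locfun F fun ω ω' hw => by simp only [hS, hF ω ω' hw]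
  have hQm : Measurable Q := meas_locfun F fun ω ω' hw => by simp only [hQ, hF ω ω' hw]
  have hpt : ∀ ω, Real.log (Yn (ρ - 2) (2 * ρ + 2) (κ * ρ) (fun x => t * m x) ω) * s ≤
      -√3 * s * t * (∫ ω', S ω' ∂μ) + (-√3 * s * t * (S ω - ∫ ω', S ω' ∂μ) +
        9 * |s| * T ^ 2 * Q ω) := by
    intro ω
    rw [hYeq, Real.log_prod fun ℓ hℓ => (hwpos ω ℓ hℓ).ne', Finset.sum_mul]
    have h1 : ∀ ℓ ∈ sf ρ (κ * ρ) ω, Real.log (wf (t * G m ℓ)) * s ≤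
        -√3 * s * t * G m ℓ + 9 * |s| * T ^ 2 * (G m ℓ) ^ 2 := by
      intro ℓ hℓ
      obtain ⟨g1, g2, -⟩ := hG ω ℓ hℓ
      have h2 := log_wf g2
      have h3 : (Real.log (wf (t * G m ℓ)) + √3 * (t * G m ℓ)) * s ≤
          9 * (t * G m ℓ) ^ 2 * |s| := by
        refine (le_abs_self _).trans ?_
        rw [abs_mul]
        exact mul_le_mul_of_nonneg_right h2 (abs_nonneg s)
      have h4 : t ^ 2 ≤ T ^ 2 := by
        rw [← sq_abs t]; exact pow_le_pow_left₀ (abs_nonneg _) ht 2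
      have h5 : 9 * (t * G m ℓ) ^ 2 * |s| ≤ 9 * |s| * T ^ 2 * (G m ℓ) ^ 2 := by
        have : 9 * (t * G m ℓ) ^ 2 * |s| = 9 * |s| * t ^ 2 * (G m ℓ) ^ 2 := by ring
        rw [this]
        exact mul_le_mul_of_nonneg_right (mul_le_mul_of_nonneg_left h4 (by positivity))
          (sq_nonneg _)
      nlinarith
    refine (Finset.sum_le_sum h1).trans (le_of_eq ?_)
    rw [Finset.sum_add_distrib, ← Finset.mul_sum, ← Finset.mul_sum]
    ring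
  have hst : |(2 * (-√3 * s * t))| ≤ 2 * √3 * |s| * T := by
    have : |(2 * (-√3 * s * t))| = 2 * √3 * |s| * |t| := by
      rw [abs_mul, abs_mul, abs_mul, abs_neg, abs_of_nonneg (Real.sqrt_nonneg 3)]
      norm_num
      ring
    rw [this]
    exact mul_le_mul_of_nonneg_left ht (by positivity)
  have h1 := hB1 ρ hρ m hm (2 * (-√3 * s * t)) hst
  have h2 := hB2 ρ hρ m hm
  have hadd := Em_add (A := fun ω => -√3 * s * t * (S ω - ∫ ω', S ω' ∂μ))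
    (B := fun ω => 9 * |s| * T ^ 2 * Q ω) ((hSm.sub measurable_const).const_mul _)
    (hQm.const_mul _) (a := B1) (b := B2)
    (by
      refine le_trans (le_of_eq ?_) h1
      congr 1
      ext ω
      simp only [hS]
      ring)
    (by
      refine le_trans (le_of_eq ?_) h2
      congr 1
      ext ω
      simp only [hQ]
      ring)
  have hEm := (Em_mono (μ := μ) hpt).trans (Em_add_const (a := -√3 * s * t * ∫ ω', S ω' ∂μ) hadd)
  have hexp : ∀ ω, Real.exp (Real.log (Yn (ρ - 2) (2 * ρ + 2) (κ * ρ) (fun x => t * m x) ω) * s) =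
      Yn (ρ - 2) (2 * ρ + 2) (κ * ρ) (fun x => t * m x) ω ^ s := fun ω =>
    (Real.rpow_def_of_pos (hYpos ω) s).symm
  have hint' : Integrable (fun ω => Real.exp (Real.log
      (Yn (ρ - 2) (2 * ρ + 2) (κ * ρ) (fun x => t * m x) ω) * s)) μ := by
    simp only [hexp]; exact hint
  rw [Em_eq hint'] at hEm
  simp only [hexp] at hEm
  rw [← ENNReal.ofReal_mul (Real.exp_pos _).le,
    ENNReal.ofReal_le_ofReal_iff (by positivity)] at hEm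
  rw [hnb]
  linarith [mul_comm (Real.exp (-√3 * s * t * ∫ ω', S ω' ∂μ)) (Real.exp ((B1 + B2) / 2))]

end Vale.Agent.P167.H45
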